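import Vale.Agent.P252.Equation

/-!
# Sections of a convex function with complete graph

If `u` has positive definite Hessian on the open convex set `Ω` and every smooth curve that
leaves every compact subset of `Ω` has infinite length on the graph, then the sections of `u`
at a point are compact subsets of `Ω` and lie in balls of linear size.
-/

namespace Vale.Agent.P252

open Set Filter Topology MeasureTheory
open scoped ENNReal

variable {n : ℕ}

/-- Completeness of the graph of `u` over `Ω`, in the form of divergent curves: every smooth curve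
in `Ω` that eventually leaves every compact subset of `Ω` has infinite length on the graph. -/
def GraphComplete (Ω : Set (Fin n → ℝ)) (u : (Fin n → ℝ) → ℝ) : Prop :=
  ∀ γ : ℝ → (Fin n → ℝ), ContDiff ℝ ((⊤ : ℕ∞) : WithTop ℕ∞) γ → MapsTo γ (Ico 0 1) Ω →
    (∀ K, IsCompact K → K ⊆ Ω → ∀ᶠ t in 𝓝[<] (1 : ℝ), γ t ∉ K) →
      eVariationOn (fun t => (γ t, u (γ t))) (Ico 0 1) = ⊤

/-- Over the whole space the condition holds trivially. -/
theorem graphComplete_univ (u : (Fin n → ℝ) → ℝ) : GraphComplete univ u := by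
  intro γ hγ _ hK
  exfalso
  have hc : IsCompact (γ '' Icc 0 1) := isCompact_Icc.image hγ.continuous
  obtain ⟨t, ht, ht'⟩ := ((hK _ hc (subset_univ _)).and
    (Ioo_mem_nhdsLT (show (0:ℝ) < 1 by norm_num))).exists
  exact ht ⟨t, ⟨ht'.1.le, ht'.2.le⟩, rfl⟩

namespace Sect

variable {Ω : Set (Fin n → ℝ)} {u : (Fin n → ℝ) → ℝ}

/-- `u` minus its tangent plane at `x₀`. -/
noncomputable def tilt (u : (Fin n → ℝ) → ℝ) (x₀ x : Fin n → ℝ) : ℝ :=
  u x - u x₀ - fderiv ℝ u x₀ (x - x₀)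

/-- The section of height `R` at `x₀`. -/
def sect (Ω : Set (Fin n → ℝ)) (u : (Fin n → ℝ) → ℝ) (x₀ : Fin n → ℝ) (R : ℝ) :
    Set (Fin n → ℝ) :=
  {x ∈ Ω | tilt u x₀ x ≤ R}

theorem second_deriv_pos (hH : ∀ x ∈ Ω, (hessian u x).PosDef) {x : Fin n → ℝ} (hx : x ∈ Ω)
    {v : Fin n → ℝ} (hv : v ≠ 0) : 0 < fderiv ℝ (fderiv ℝ u) x v v := by
  have h := (hH x hx).dotProduct_mulVec_pos hv
  have hsum : v = ∑ i, v i • (Pi.single i 1 : Fin n → ℝ) := by
    ext j
    simp [Finset.sum_apply, Pi.single_apply]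
  have e : fderiv ℝ (fderiv ℝ u) x v v =
      ∑ i, ∑ j, v i * (v j * fderiv ℝ (fderiv ℝ u) x (Pi.single i 1) (Pi.single j 1)) := by
    conv_lhs => rw [hsum]
    simp only [map_sum, map_smul, FunLike.coe_sum, Finset.sum_apply,
      FunLike.coe_smul, Pi.smul_apply, smul_eq_mul, Finset.mul_sum]
    rw [Finset.sum_comm]
    refine Finset.sum_congr rfl fun i _ => Finset.sum_congr rfl fun j _ => ?_
    ring
  rw [e]
  simp only [dotProduct, Matrix.mulVec, hessian, Matrix.of_apply, star_trivial] at h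
  refine h.trans_le (le_of_eq ?_)
  refine Finset.sum_congr rfl fun i _ => ?_
  rw [Finset.mul_sum]
  refine Finset.sum_congr rfl fun j _ => ?_
  ring

theorem hasDerivAt_fderiv_line (hO : IsOpen Ω)
    (hu : ContDiffOn ℝ ((⊤ : ℕ∞) : WithTop ℕ∞) u Ω) {x₀ d : Fin n → ℝ} {t : ℝ}
    (ht : x₀ + t • d ∈ Ω) :
    HasDerivAt (fun t : ℝ => fderiv ℝ u (x₀ + t • d) d)
      (fderiv ℝ (fderiv ℝ u) (x₀ + t • d) d d) t := by
  have hline : HasDerivAt (fun t : ℝ => x₀ + t • d) d t := by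
    simpa using ((hasDerivAt_id t).smul_const d).const_add x₀
  have h1 : DifferentiableAt ℝ (fderiv ℝ u) (x₀ + t • d) :=
    ((hu.contDiffAt (hO.mem_nhds ht)).fderiv_right (m := 1)
      (WithTop.coe_le_coe.2 le_top)).differentiableAt one_ne_zero
  have h2 := (ContinuousLinearMap.apply ℝ ℝ d).hasFDerivAt.comp_hasDerivAt t
    (h1.hasFDerivAt.comp_hasDerivAt t hline)
  exact h2

theorem tilt_line (hO : IsOpen Ω) (hu : ContDiffOn ℝ ((⊤ : ℕ∞) : WithTop ℕ∞) u Ω)
    (hH : ∀ x ∈ Ω, (hessian u x).PosDef) {x₀ d : Fin n → ℝ} (hd : d ≠ 0) {I : Set ℝ}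
    (hI : Convex ℝ I) (hin : ∀ t ∈ I, x₀ + t • d ∈ Ω) :
    (∀ t ∈ I, HasDerivAt (fun t => tilt u x₀ (x₀ + t • d))
      (fderiv ℝ u (x₀ + t • d) d - fderiv ℝ u x₀ d) t) ∧
    StrictMonoOn (fun t : ℝ => fderiv ℝ u (x₀ + t • d) d) I := by
  have hline : ∀ t : ℝ, HasDerivAt (fun t : ℝ => x₀ + t • d) d t := fun t => by
    simpa using ((hasDerivAt_id t).smul_const d).const_add x₀
  have hdu : ∀ t ∈ I, HasDerivAt (fun t : ℝ => u (x₀ + t • d))
      (fderiv ℝ u (x₀ + t • d) d) t := fun t ht =>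
    (((hu.contDiffAt (hO.mem_nhds (hin t ht))).differentiableAt (by simp)).hasFDerivAt
      ).comp_hasDerivAt t (hline t)
  have hd2 : ∀ t ∈ I, HasDerivAt (fun t : ℝ => fderiv ℝ u (x₀ + t • d) d)
      (fderiv ℝ (fderiv ℝ u) (x₀ + t • d) d d) t := fun t ht => by
    exact hasDerivAt_fderiv_line hO hu (hin t ht)
  have hval : ∀ t ∈ I, HasDerivAt (fun t => tilt u x₀ (x₀ + t • d))
      (fderiv ℝ u (x₀ + t • d) d - fderiv ℝ u x₀ d) t := fun t ht => by
    have := ((hdu t ht).sub_const (u x₀)).fun_sub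
      ((hasDerivAt_id' t).mul_const (fderiv ℝ u x₀ d))
    simpa [tilt, map_smul, one_mul] using this
  have hmono : StrictMonoOn (fun t : ℝ => fderiv ℝ u (x₀ + t • d) d) I := by
    refine strictMonoOn_of_deriv_pos hI (fun t ht => (hd2 t ht).continuousAt.continuousWithinAt)
      fun t ht => ?_
    rw [(hd2 t (interior_subset ht)).deriv]
    exact second_deriv_pos hH (hin t (interior_subset ht)) hd
  exact ⟨hval, hmono⟩

/-- The restriction of the tilt to a segment inside `Ω` is strictly increasing. -/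
theorem tilt_strictMono (hO : IsOpen Ω) (hu : ContDiffOn ℝ ((⊤ : ℕ∞) : WithTop ℕ∞) u Ω)
    (hH : ∀ x ∈ Ω, (hessian u x).PosDef) {x₀ d : Fin n → ℝ} (hd : d ≠ 0) {I : Set ℝ}
    (hI : Convex ℝ I) (h0 : (0 : ℝ) ∈ I) (hI0 : ∀ t ∈ I, 0 ≤ t)
    (hin : ∀ t ∈ I, x₀ + t • d ∈ Ω) : StrictMonoOn (fun t => tilt u x₀ (x₀ + t • d)) I := by
  obtain ⟨hval, hmono⟩ := tilt_line hO hu hH hd hI hin
  refine strictMonoOn_of_deriv_pos hI (fun t ht => (hval t ht).continuousAt.continuousWithinAt)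
    fun t ht => ?_
  rw [(hval t (interior_subset ht)).deriv, sub_pos]
  have ht0 : 0 < t := by
    rcases (hI0 t (interior_subset ht)).lt_or_eq with h | h
    · exact h
    · exfalso
      obtain ⟨ε, hε, hball⟩ := Metric.isOpen_iff.1 isOpen_interior t ht
      have := hI0 _ (interior_subset (hball (show t - ε / 2 ∈ Metric.ball t ε by
        simp [abs_of_pos hε, hε])))
      linarith
  have := hmono h0 (interior_subset ht) ht0
  simpa using this

theorem segment_mem (hC : Convex ℝ Ω) {x₀ x : Fin n → ℝ} (h0 : x₀ ∈ Ω) (hx : x ∈ Ω) {t : ℝ}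
    (ht : t ∈ Icc (0 : ℝ) 1) : x₀ + t • (x - x₀) ∈ Ω :=
  hC.add_smul_sub_mem h0 hx ht

theorem tilt_self (x₀ : Fin n → ℝ) : tilt u x₀ x₀ = 0 := by simp [tilt]

theorem tilt_pos (hO : IsOpen Ω) (hC : Convex ℝ Ω)
    (hu : ContDiffOn ℝ ((⊤ : ℕ∞) : WithTop ℕ∞) u Ω) (hH : ∀ x ∈ Ω, (hessian u x).PosDef)
    {x₀ x : Fin n → ℝ} (h0 : x₀ ∈ Ω) (hx : x ∈ Ω) (hne : x ≠ x₀) : 0 < tilt u x₀ x := by
  have h := tilt_strictMono hO hu hH (sub_ne_zero.2 hne) (convex_Icc (0:ℝ) 1)
    (left_mem_Icc.2 zero_le_one) (fun t ht => ht.1) (fun t ht => segment_mem hC h0 hx ht)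
    (left_mem_Icc.2 zero_le_one) (right_mem_Icc.2 zero_le_one) zero_lt_one
  simpa [tilt_self] using h

theorem tilt_smul_le (hO : IsOpen Ω) (hC : Convex ℝ Ω)
    (hu : ContDiffOn ℝ ((⊤ : ℕ∞) : WithTop ℕ∞) u Ω) (hH : ∀ x ∈ Ω, (hessian u x).PosDef)
    {x₀ x : Fin n → ℝ} (h0 : x₀ ∈ Ω) (hx : x ∈ Ω) {t : ℝ} (ht : t ∈ Icc (0 : ℝ) 1) :
    tilt u x₀ (x₀ + t • (x - x₀)) ≤ t * tilt u x₀ x := by
  by_cases h : x = x₀
  · simp [h, tilt_self]
  obtain ⟨hval, hmono⟩ := tilt_line (x₀ := x₀) hO hu hH (sub_ne_zero.2 h) (convex_Icc (0:ℝ) 1)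
    (fun t ht => segment_mem hC h0 hx ht)
  have hcv : ConvexOn ℝ (Icc (0 : ℝ) 1) fun t => tilt u x₀ (x₀ + t • (x - x₀)) := by
    refine MonotoneOn.convexOn_of_deriv (convex_Icc _ _)
      (fun s hs => (hval s hs).continuousAt.continuousWithinAt)
      (fun s hs => (hval s (interior_subset hs)).differentiableAt.differentiableWithinAt) ?_
    intro a ha b hb hab
    rw [(hval a (interior_subset ha)).deriv, (hval b (interior_subset hb)).deriv]
    have := hmono.monotoneOn (interior_subset ha) (interior_subset hb) hab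
    simpa using this
  have := hcv.2 (left_mem_Icc.2 zero_le_one) (right_mem_Icc.2 zero_le_one)
    (sub_nonneg.2 ht.2) ht.1 (sub_add_cancel 1 t)
  simpa [tilt_self] using this

theorem tilt_continuousOn (hu : ContDiffOn ℝ ((⊤ : ℕ∞) : WithTop ℕ∞) u Ω) (x₀ : Fin n → ℝ) :
    ContinuousOn (tilt u x₀) Ω :=
  (hu.continuousOn.sub continuousOn_const).sub
    ((fderiv ℝ u x₀).continuous.comp (continuous_id.sub continuous_const)).continuousOn

theorem eVariationOn_le_of_monotone {E : Type*} [PseudoMetricSpace E] {f : ℝ → E} {φ : ℝ → ℝ}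
    {s : Set ℝ} {M : ℝ} (hb : ∀ t ∈ s, φ t ∈ Icc 0 M)
    (h : ∀ a ∈ s, ∀ b ∈ s, a ≤ b → dist (f b) (f a) ≤ φ b - φ a) :
    eVariationOn f s ≤ ENNReal.ofReal M := by
  refine iSup_le fun p => ?_
  obtain ⟨k, w, hw, hws⟩ := p
  calc ∑ i ∈ Finset.range k, edist (f (w (i + 1))) (f (w i))
      ≤ ∑ i ∈ Finset.range k, ENNReal.ofReal (φ (w (i + 1)) - φ (w i)) := by
        refine Finset.sum_le_sum fun i _ => ?_
        rw [edist_dist]
        exact ENNReal.ofReal_le_ofReal (h _ (hws i) _ (hws (i + 1)) (hw (Nat.le_succ i)))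
    _ = ENNReal.ofReal (∑ i ∈ Finset.range k, (φ (w (i + 1)) - φ (w i))) := by
        refine (ENNReal.ofReal_sum_of_nonneg fun i _ => ?_).symm
        exact le_trans dist_nonneg (h _ (hws i) _ (hws (i + 1)) (hw (Nat.le_succ i)))
    _ ≤ ENNReal.ofReal M := by
        refine ENNReal.ofReal_le_ofReal ?_
        rw [Finset.sum_range_sub (fun i => φ (w i))]
        have := hb _ (hws k); have := hb _ (hws 0)
        simp only [mem_Icc] at *
        linarith

/-- A bound on the tilt keeps one away from the boundary of `Ω`. -/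
theorem closure_sect_subset (hO : IsOpen Ω) (hC : Convex ℝ Ω)
    (hu : ContDiffOn ℝ ((⊤ : ℕ∞) : WithTop ℕ∞) u Ω) (hH : ∀ x ∈ Ω, (hessian u x).PosDef)
    (hg : GraphComplete Ω u) {x₀ : Fin n → ℝ} (h0 : x₀ ∈ Ω) (R : ℝ) :
    closure (sect Ω u x₀ R) ⊆ Ω := by
  intro y hy
  by_contra hyO
  obtain ⟨xs, hxs, hlim⟩ := mem_closure_iff_seq_limit.1 hy
  have hne : y - x₀ ≠ 0 := sub_ne_zero.2 fun h => hyO (h ▸ h0)
  have hyc : y ∈ closure Ω := closure_mono (fun x hx => hx.1) hy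
  have hin : ∀ t ∈ Ico (0:ℝ) 1, x₀ + t • (y - x₀) ∈ Ω := by
    intro t ht
    rcases ht.1.lt_or_eq with h | h
    · have : x₀ + t • (y - x₀) ∈ openSegment ℝ x₀ y :=
        ⟨1 - t, t, by linarith [ht.2], h, by ring, by module⟩
      have := hC.openSegment_interior_closure_subset_interior (by rwa [hO.interior_eq]) hyc this
      rwa [hO.interior_eq] at this
    · simpa [← h] using h0
  have hmono := tilt_strictMono hO hu hH hne (convex_Ico (0:ℝ) 1) (left_mem_Ico.2 zero_lt_one)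
    (fun t ht => ht.1) hin
  have hR : 0 ≤ R := by
    have h1 := (hxs 0).2
    by_cases h : xs 0 = x₀
    · rwa [h, tilt_self] at h1
    · exact (tilt_pos hO hC hu hH h0 (hxs 0).1 h).le.trans h1
  have hle : ∀ t ∈ Ico (0:ℝ) 1, tilt u x₀ (x₀ + t • (y - x₀)) ≤ R := by
    intro t ht
    have hc : Tendsto (fun k => tilt u x₀ (x₀ + t • (xs k - x₀))) atTop
        (𝓝 (tilt u x₀ (x₀ + t • (y - x₀)))) :=
      ((tilt_continuousOn hu x₀).continuousAt (hO.mem_nhds (hin t ht))).tendsto.comp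
        (tendsto_const_nhds.add ((hlim.sub tendsto_const_nhds).const_smul t))
    refine le_of_tendsto hc (Eventually.of_forall fun k => ?_)
    by_cases h : xs k = x₀
    · simpa [h, tilt_self] using hR
    · have hm := tilt_strictMono hO hu hH (sub_ne_zero.2 h) (convex_Icc (0:ℝ) 1)
        (left_mem_Icc.2 zero_le_one) (fun t ht => ht.1)
        (fun t ht => segment_mem hC h0 (hxs k).1 ht)
      have := hm.monotoneOn ⟨ht.1, ht.2.le⟩ (right_mem_Icc.2 zero_le_one) ht.2.le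
      simp only [one_smul, add_sub_cancel] at this
      exact this.trans (hxs k).2
  have hge : ∀ t ∈ Ico (0:ℝ) 1, 0 ≤ tilt u x₀ (x₀ + t • (y - x₀)) := by
    intro t ht
    have := hmono.monotoneOn (left_mem_Ico.2 zero_lt_one) ht ht.1
    simpa [tilt_self] using this
  set γ : ℝ → (Fin n → ℝ) := fun t => x₀ + t • (y - x₀) with hγ
  set A : ℝ := ‖y - x₀‖ + |fderiv ℝ u x₀ (y - x₀)| + 1 with hA
  have hA1 : 1 ≤ A := le_add_of_nonneg_left (by positivity)
  have htop := hg γ (by fun_prop) hin fun K hK hKO => by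
    have : ∀ᶠ t in 𝓝 (1:ℝ), γ t ∈ Kᶜ := by
      refine (show Continuous γ by fun_prop).continuousAt.preimage_mem_nhds
        (hK.isClosed.isOpen_compl.mem_nhds ?_)
      simpa [hγ] using fun h => hyO (hKO h)
    exact this.filter_mono nhdsWithin_le_nhds
  refine absurd htop (ne_top_of_le_ne_top ENNReal.ofReal_ne_top
    (eVariationOn_le_of_monotone (φ := fun t => A * (t + tilt u x₀ (γ t))) (M := A * (1 + R))
      ?_ ?_))
  · intro t ht
    exact ⟨mul_nonneg (by linarith) (add_nonneg ht.1 (hge t ht)),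
      mul_le_mul_of_nonneg_left (add_le_add ht.2.le (hle t ht)) (by linarith)⟩
  · intro a ha b hb hab
    have hab' := hmono.monotoneOn ha hb hab
    have e : u (γ b) - u (γ a) =
        (tilt u x₀ (γ b) - tilt u x₀ (γ a)) + (b - a) * fderiv ℝ u x₀ (y - x₀) := by
      simp only [tilt, hγ, add_sub_cancel_left, map_smul, smul_eq_mul]
      ring
    rw [Prod.dist_eq, dist_eq_norm, Real.dist_eq]
    refine max_le ?_ ?_
    · have : γ b - γ a = (b - a) • (y - x₀) := by simp only [hγ]; module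
      rw [this, norm_smul, Real.norm_eq_abs, abs_of_nonneg (by linarith)]
      calc (b - a) * ‖y - x₀‖ ≤ (b - a) * A := by
            refine mul_le_mul_of_nonneg_left ?_ (by linarith)
            have := abs_nonneg (fderiv ℝ u x₀ (y - x₀)); linarith
        _ ≤ _ := by simp only [hγ] at *; nlinarith
    · rw [e]
      refine (abs_add_le _ _).trans ?_
      rw [abs_mul, abs_of_nonneg (sub_nonneg.2 hab'), abs_of_nonneg (sub_nonneg.2 hab)]
      have h1 : (b - a) * |fderiv ℝ u x₀ (y - x₀)| ≤ (b - a) * A := by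
        refine mul_le_mul_of_nonneg_left ?_ (by linarith)
        have := norm_nonneg (y - x₀); linarith
      simp only [hγ] at *
      nlinarith

/-- The sections are bounded, with linear growth of the radius. -/
theorem sect_subset_closedBall (hO : IsOpen Ω) (hC : Convex ℝ Ω)
    (hu : ContDiffOn ℝ ((⊤ : ℕ∞) : WithTop ℕ∞) u Ω) (hH : ∀ x ∈ Ω, (hessian u x).PosDef)
    {x₀ : Fin n → ℝ} (h0 : x₀ ∈ Ω) :
    ∃ L : ℝ, 0 < L ∧ ∀ R, 0 ≤ R → sect Ω u x₀ R ⊆ Metric.closedBall x₀ (L * (R + 1)) := by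
  obtain ⟨ε, hε, hball⟩ := Metric.isOpen_iff.1 hO x₀ h0
  set r := ε / 2 with hr
  have hr0 : 0 < r := by positivity
  have hsub : Metric.sphere x₀ r ⊆ Ω := fun x hx => hball (by
    simp only [Metric.mem_sphere] at hx
    simp only [Metric.mem_ball, hx]; linarith)
  by_cases hne : (Metric.sphere x₀ r).Nonempty
  swap
  · refine ⟨1, one_pos, fun R hR x _ => ?_⟩
    by_cases h : x = x₀
    · simp [h]; linarith
    · exfalso
      refine hne ⟨x₀ + (r / ‖x - x₀‖) • (x - x₀), ?_⟩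
      have : 0 < ‖x - x₀‖ := norm_pos_iff.2 (sub_ne_zero.2 h)
      simp [norm_smul, abs_of_pos hr0, this.ne']
  obtain ⟨z, hz, hmin⟩ := (isCompact_sphere x₀ r).exists_isMinOn hne
    ((tilt_continuousOn hu x₀).mono hsub)
  set c := tilt u x₀ z with hc
  have hc0 : 0 < c := tilt_pos hO hC hu hH h0 (hsub hz) (fun h => by
    simp [h] at hz; linarith)
  refine ⟨r + r / c, by positivity, fun R hR x hx => ?_⟩
  rw [Metric.mem_closedBall, dist_eq_norm]
  by_cases hxr : ‖x - x₀‖ ≤ r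
  · have : 0 ≤ r / c := by positivity
    nlinarith
  rw [not_le] at hxr
  have hpos : 0 < ‖x - x₀‖ := hr0.trans hxr
  set t := r / ‖x - x₀‖ with ht
  have ht0 : 0 < t := by positivity
  have ht1 : t < 1 := by rw [ht, div_lt_one hpos]; exact hxr
  have hp : x₀ + t • (x - x₀) ∈ Metric.sphere x₀ r := by
    simp [norm_smul, ht, abs_of_pos hr0, hpos.ne']
  have hcp : c ≤ tilt u x₀ (x₀ + t • (x - x₀)) := hmin hp
  have hconv := tilt_smul_le hO hC hu hH h0 hx.1 (t := t) ⟨ht0.le, ht1.le⟩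
  have hcR : c ≤ t * R := hcp.trans (hconv.trans (mul_le_mul_of_nonneg_left hx.2 ht0.le))
  rw [ht, div_mul_eq_mul_div, le_div_iff₀ hpos] at hcR
  calc ‖x - x₀‖ ≤ r * R / c := by rw [le_div_iff₀ hc0]; linarith
    _ ≤ (r + r / c) * (R + 1) := by
        have e : r * R / c = r / c * R := by ring
        have : 0 ≤ r / c := by positivity
        rw [e]; nlinarith

theorem isCompact_sect (hO : IsOpen Ω) (hC : Convex ℝ Ω)
    (hu : ContDiffOn ℝ ((⊤ : ℕ∞) : WithTop ℕ∞) u Ω) (hH : ∀ x ∈ Ω, (hessian u x).PosDef)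
    (hg : GraphComplete Ω u) {x₀ : Fin n → ℝ} (h0 : x₀ ∈ Ω) {R : ℝ} (hR : 0 ≤ R) :
    IsCompact (sect Ω u x₀ R) := by
  obtain ⟨L, -, hL⟩ := sect_subset_closedBall hO hC hu hH h0
  refine (isCompact_closedBall x₀ (L * (R + 1))).of_isClosed_subset ?_ (hL R hR)
  refine isClosed_of_closure_subset fun y hy => ?_
  have hyO := closure_sect_subset hO hC hu hH hg h0 R hy
  obtain ⟨xs, hxs, hlim⟩ := mem_closure_iff_seq_limit.1 hy
  refine ⟨hyO, le_of_tendsto (x := atTop) (f := fun k => tilt u x₀ (xs k)) ?_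
    (Eventually.of_forall fun k => (hxs k).2)⟩
  exact ((tilt_continuousOn hu x₀).continuousAt (hO.mem_nhds hyO)).tendsto.comp hlim

/-- The volume of the sections grows at most like `R ^ n`. -/
theorem volume_sect_le (hO : IsOpen Ω) (hC : Convex ℝ Ω)
    (hu : ContDiffOn ℝ ((⊤ : ℕ∞) : WithTop ℕ∞) u Ω) (hH : ∀ x ∈ Ω, (hessian u x).PosDef)
    {x₀ : Fin n → ℝ} (h0 : x₀ ∈ Ω) :
    ∃ C : ℝ, 0 < C ∧ ∀ R, 1 ≤ R → volume.real (sect Ω u x₀ R) ≤ C * R ^ n := by
  obtain ⟨L, hL0, hL⟩ := sect_subset_closedBall hO hC hu hH h0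
  refine ⟨(4 * L) ^ n, by positivity, fun R hR => ?_⟩
  calc volume.real (sect Ω u x₀ R) ≤ volume.real (Metric.closedBall x₀ (L * (R + 1))) :=
        measureReal_mono (hL R (by linarith)) (isCompact_closedBall _ _).measure_lt_top.ne
    _ = (2 * (L * (R + 1))) ^ n := by
        rw [measureReal_def, Real.volume_pi_closedBall x₀ (by positivity),
          ENNReal.toReal_ofReal (by positivity), Fintype.card_fin]
    _ ≤ (4 * L) ^ n * R ^ n := by
        rw [← mul_pow]
        exact pow_le_pow_left₀ (by positivity) (by nlinarith) n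

end Sect

end Vale.Agent.P252
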