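import Mathlib

/-!
# Real algebra for the integral proof of the affine sphere theorem
-/

namespace Vale.Agent.P252

/-! ### Young inequalities -/

/-- Young's inequality for monomials, in the weakest form that is needed. -/
theorem exists_young (a : ℕ) {b : ℕ} (hb : 1 ≤ b) {ε : ℝ} (hε : 0 < ε) :
    ∃ C : ℝ, 0 ≤ C ∧ ∀ T h : ℝ, 0 ≤ T → 0 ≤ h →
      T ^ a * h ^ b ≤ ε * T ^ (a + b) + C * h ^ (a + b) := by
  set e := min ε 1 with he
  have he0 : 0 < e := lt_min hε one_pos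
  refine ⟨(1 / e) ^ a, by positivity, fun T h hT hh => ?_⟩
  by_cases hle : h ≤ e * T
  · have h1 : h ^ b ≤ ε * T ^ b := by
      refine (pow_le_pow_left₀ hh hle b).trans ?_
      rw [mul_pow]
      refine mul_le_mul_of_nonneg_right ?_ (by positivity)
      exact (pow_le_of_le_one he0.le (min_le_right _ _) (by omega)).trans (min_le_left _ _)
    calc T ^ a * h ^ b ≤ T ^ a * (ε * T ^ b) := mul_le_mul_of_nonneg_left h1 (by positivity)
      _ = ε * T ^ (a + b) := by ring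
      _ ≤ _ := le_add_of_nonneg_right (by positivity)
  · have h1 : T ≤ 1 / e * h := by
      rw [one_div, ← div_eq_inv_mul, le_div_iff₀ he0]
      linarith [not_le.1 hle]
    calc T ^ a * h ^ b ≤ (1 / e * h) ^ a * h ^ b :=
          mul_le_mul_of_nonneg_right (pow_le_pow_left₀ hT h1 a) (by positivity)
      _ = (1 / e) ^ a * h ^ (a + b) := by ring
      _ ≤ _ := le_add_of_nonneg_left (by positivity)

/-- The quadratic form behind the gradient estimate. -/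
theorem core_ineq {a b g m B B' η C₁ C₂ T h al p X : ℝ} (ha : g ≤ a) (hb : g ≤ b) (hg : 0 < g)
    (hab : m ^ 2 ≤ (a - g) * (b - g)) (hB : 0 ≤ B) (hT : 0 ≤ T) (_hh : 0 ≤ h) (hp : 0 ≤ p)
    (hal : al ^ 2 ≤ T * p) (hX : b * p ≤ X)
    (hη : (B + B' ^ 2 / g) * η ≤ g / 4)
    (hY1 : T ^ 2 * h ≤ η * T ^ 3 + C₁ * h ^ 3) (hY2 : T * h ^ 2 ≤ η * T ^ 3 + C₂ * h ^ 3) :
    g / 2 * T ^ 3 ≤ a * T ^ 3 + 2 * m * (h * T * al) + h ^ 2 * X - B * (T ^ 2 * h)
      - B' * (h ^ 2 * al) + (B * C₁ + B' ^ 2 / g * C₂) * h ^ 3 := by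
  have hag : 0 ≤ a - g := sub_nonneg.2 ha
  have hbg : 0 ≤ b - g := sub_nonneg.2 hb
  have hT3 : 0 ≤ T ^ 3 := pow_nonneg hT 3
  have hhp : 0 ≤ h ^ 2 * p := mul_nonneg (sq_nonneg h) hp
  have h1 : |2 * m * (h * T * al)| ≤ (a - g) * T ^ 3 + (b - g) * (h ^ 2 * p) := by
    refine abs_le_of_sq_le_sq ?_ (add_nonneg (mul_nonneg hag hT3) (mul_nonneg hbg hhp))
    calc (2 * m * (h * T * al)) ^ 2 = 4 * m ^ 2 * (T ^ 2 * h ^ 2 * al ^ 2) := by ring
      _ ≤ 4 * ((a - g) * (b - g)) * (T ^ 2 * h ^ 2 * (T * p)) := by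
          refine mul_le_mul (by linarith) (mul_le_mul_of_nonneg_left hal (by positivity))
            (by positivity) (by positivity)
      _ = 4 * ((a - g) * T ^ 3) * ((b - g) * (h ^ 2 * p)) := by ring
      _ ≤ _ := four_mul_le_pow_two_add _ _
  have h2 : |B' * (h ^ 2 * al)| ≤ g * (h ^ 2 * p) + B' ^ 2 / g * (T * h ^ 2) := by
    refine abs_le_of_sq_le_sq ?_ (by positivity)
    calc (B' * (h ^ 2 * al)) ^ 2 = B' ^ 2 * h ^ 4 * al ^ 2 := by ring
      _ ≤ B' ^ 2 * h ^ 4 * (T * p) := mul_le_mul_of_nonneg_left hal (by positivity)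
      _ = g * (h ^ 2 * p) * (B' ^ 2 / g * (T * h ^ 2)) := by field_simp
      _ ≤ 4 * (g * (h ^ 2 * p)) * (B' ^ 2 / g * (T * h ^ 2)) :=
          mul_le_mul_of_nonneg_right (le_mul_of_one_le_left (by positivity) (by norm_num))
            (by positivity)
      _ ≤ _ := four_mul_le_pow_two_add _ _
  have h3 := mul_le_mul_of_nonneg_left hY1 hB
  have h4 := mul_le_mul_of_nonneg_left hY2 (show 0 ≤ B' ^ 2 / g by positivity)
  have h6 := mul_le_mul_of_nonneg_right hη hT3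
  have h7 := mul_le_mul_of_nonneg_left hX (sq_nonneg h)
  have h8 : 0 ≤ g * T ^ 3 := mul_nonneg hg.le hT3
  have := neg_abs_le (2 * m * (h * T * al))
  have := le_abs_self (B' * (h ^ 2 * al))
  linarith

/-- Multiplying the core inequality by the weight and absorbing the lower order term. -/
theorem weight_ineq {g C₃ C₄ T h E : ℝ} (k J : ℕ) (hg : 0 ≤ g) (hC₃ : 0 ≤ C₃) (hh : 0 ≤ h)
    (hT : 0 ≤ T) (hE : g / 2 * T ^ 3 ≤ E + C₃ * h ^ 3)
    (hY : T ^ k * h ^ 3 ≤ g / 4 / (C₃ + 1) * T ^ (k + 3) + C₄ * h ^ (k + 3)) :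
    g / 4 * (h ^ J * T ^ (k + 3)) ≤ h ^ J * T ^ k * E + C₃ * C₄ * h ^ (J + (k + 3)) := by
  have hfrac : C₃ * (g / 4 / (C₃ + 1)) ≤ g / 4 := by
    rw [mul_div_assoc', div_le_iff₀ (by positivity)]; nlinarith
  have h1 := mul_le_mul_of_nonneg_left hE (show 0 ≤ h ^ J * T ^ k by positivity)
  have h2 := mul_le_mul_of_nonneg_left hY (show 0 ≤ h ^ J * C₃ by positivity)
  have h3 := mul_le_mul_of_nonneg_right hfrac (show 0 ≤ h ^ J * T ^ (k + 3) by positivity)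
  have e1 : h ^ J * T ^ k * (g / 2 * T ^ 3) = g / 2 * (h ^ J * T ^ (k + 3)) := by ring
  have e2 : h ^ J * T ^ k * (E + C₃ * h ^ 3) = h ^ J * T ^ k * E + h ^ J * C₃ * (T ^ k * h ^ 3) := by
    ring
  have e3 : h ^ J * C₃ * (g / 4 / (C₃ + 1) * T ^ (k + 3) + C₄ * h ^ (k + 3)) =
      C₃ * (g / 4 / (C₃ + 1)) * (h ^ J * T ^ (k + 3)) + C₃ * C₄ * h ^ (J + (k + 3)) := by ring
  rw [e1, e2] at h1
  rw [e3] at h2
  linarith

/-- The gradient estimate, pointwise. `T = |dv|²`, `al = C(dv,dv,dv)`, `p2 = |C(dv,dv)|²`,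
`S = tr (GCGC)`, `J + 1` is the cut-off exponent and `k + 2 = n`. -/
theorem gradient_algebra (n k J : ℕ) (hk : n = k + 2) (hJ : n * (n - 1) < J + 1) :
    ∃ δ C : ℝ, 0 < δ ∧ 0 ≤ C ∧ ∀ h T al p2 S : ℝ, 0 ≤ h → 0 ≤ T → 0 ≤ p2 → al ^ 2 ≤ T * p2 →
      (n : ℝ) * p2 ≤ ((n : ℝ) - 1) * (T * S) →
      δ * (h ^ J * T ^ (n + 1)) ≤
        -(((J : ℝ) + 2) / n *
            (h ^ (J + 1) * (n * T ^ n + n * T ^ (k + 1) * (2 * T - al))
              - (J + 1) * (h ^ J * T ^ (n + 1)))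
          + (h ^ (J + 2) * (-(T ^ (k + 1) * S) + (k + 1) * T ^ k * (2 * al - p2))
              - (J + 2) * (h ^ (J + 1) * (T ^ (k + 1) * al))))
        + C * h ^ (J + 1 + n) := by
  have hn : (n : ℝ) = (k : ℝ) + 2 := by exact_mod_cast hk
  have hn0 : (0 : ℝ) < (n : ℝ) := by rw [hn]; positivity
  have hn1 : (0 : ℝ) < (n : ℝ) - 1 := by
    have : (0 : ℝ) ≤ k := Nat.cast_nonneg k
    linarith
  set a0 : ℝ := ((J : ℝ) + 2) / n * (J + 1) with ha0
  set b0 : ℝ := (k : ℝ) + 1 + n / ((n : ℝ) - 1) with hb0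
  have ha0p : 0 < a0 := by positivity
  have hb0p : 0 < b0 := by positivity
  have hgap : ((J : ℝ) + 2) ^ 2 < a0 * b0 := by
    have hJ' : (n : ℝ) * ((n : ℝ) - 1) < (J : ℝ) + 1 := by
      have : ((n * (n - 1) : ℕ) : ℝ) < ((J + 1 : ℕ) : ℝ) := by exact_mod_cast hJ
      push_cast [Nat.cast_sub (show 1 ≤ n by omega)] at this
      exact this
    have e : a0 * b0 - ((J : ℝ) + 2) ^ 2 =
        ((J : ℝ) + 2) * (((J : ℝ) + 1) / (n * ((n : ℝ) - 1)) - 1) := by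
      rw [ha0, hb0, show (k : ℝ) = n - 2 by linarith]
      field_simp
      ring
    have : 1 < ((J : ℝ) + 1) / (n * ((n : ℝ) - 1)) := by
      rw [lt_div_iff₀ (by positivity)]; linarith
    have := mul_pos (show (0 : ℝ) < (J : ℝ) + 2 by positivity) (sub_pos.2 this)
    linarith
  set m : ℝ := (J : ℝ) + 2 with hm
  set g := (a0 * b0 - m ^ 2) / (a0 + b0) with hg
  have hg0 : 0 < g := div_pos (by linarith) (by linarith)
  have hgs : g * (a0 + b0) = a0 * b0 - m ^ 2 := div_mul_cancel₀ _ (by linarith)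
  have hga : g ≤ a0 := by nlinarith [sq_nonneg m, mul_pos ha0p ha0p]
  have hgb : g ≤ b0 := by nlinarith [sq_nonneg m, mul_pos hb0p hb0p]
  have hab : m ^ 2 ≤ (a0 - g) * (b0 - g) := by nlinarith [sq_nonneg g]
  set B : ℝ := m / n * (n + 2 * n) with hB
  set B' : ℝ := 2 * ((k : ℝ) + 1) with hB'
  have hB0 : 0 ≤ B := by positivity
  set D : ℝ := B + B' ^ 2 / g with hD
  have hD0 : 0 ≤ D := by positivity
  set η : ℝ := g / 4 / (D + 1) with hη
  have hη0 : 0 < η := by positivity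
  have hDη : D * η ≤ g / 4 := by
    rw [hη, mul_div_assoc', div_le_iff₀ (by positivity)]; nlinarith
  obtain ⟨C1, hC1, hY1⟩ := exists_young 2 (b := 1) le_rfl hη0
  obtain ⟨C2, hC2, hY2⟩ := exists_young 1 (b := 2) (by norm_num) hη0
  set C3 : ℝ := B * C1 + B' ^ 2 / g * C2 with hC3
  have hC30 : 0 ≤ C3 := by positivity
  obtain ⟨C4, hC4, hY4⟩ := exists_young k (b := 3) (by norm_num)
    (show (0 : ℝ) < g / 4 / (C3 + 1) by positivity)
  refine ⟨g / 4, C3 * C4, by positivity, by positivity, fun h T al p2 S hh hT hp hal hS => ?_⟩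
  have hX : b0 * p2 ≤ T * S + ((k : ℝ) + 1) * p2 := by
    have : (n : ℝ) / ((n : ℝ) - 1) * p2 ≤ T * S := by
      rw [div_mul_eq_mul_div, div_le_iff₀ hn1]; linarith
    rw [hb0, add_mul]
    linarith
  have hcore := core_ineq hga hgb hg0 hab hB0 hT hh hp hal hX hDη
    (by simpa using hY1 T h hT hh) (by simpa using hY2 T h hT hh)
  have hw := weight_ineq k J hg0.le hC30 hh hT hcore (hY4 T h hT hh)
  refine le_of_eq_of_le ?_ (hw.trans_eq ?_)
  · rw [show n + 1 = k + 3 by omega]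
  · rw [show J + 1 + n = J + (k + 3) by omega, ha0, hB, hm, hB']
    subst hk
    field_simp
    ring

/-- The estimate of the cubic form, pointwise. -/
theorem cubic_algebra (n k J : ℕ) (hk : n = k + 2) :
    ∃ C : ℝ, 0 ≤ C ∧ ∀ h F P bt T L : ℝ, 0 ≤ h → 0 ≤ F → 0 ≤ P → 0 ≤ T → bt ^ 2 ≤ T * P →
      F ^ 2 / (2 * n) ≤ L →
      1 / (4 * n) * (h ^ (J + 2 * n + 2) * F ^ (n + 1)) ≤
        h ^ (J + 2 * n + 2) * ((k + 1) * F ^ k * P + F ^ (k + 1) * L)
          - (J + 2 * n + 2) * (h ^ (J + 2 * n + 1) * (F ^ (k + 1) * bt))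
        + C * (h ^ J * T ^ (n + 1)) := by
  set N : ℝ := (J : ℝ) + 2 * n + 2 with hN
  have hn0 : (0 : ℝ) < n := by rw [show n = k + 2 from hk]; positivity
  set W : ℝ := N ^ 2 / (4 * ((k : ℝ) + 1)) with hW
  have hW0 : 0 ≤ W := by positivity
  obtain ⟨C, hC, hY⟩ := exists_young (k + 2) (b := 1) le_rfl
    (show (0 : ℝ) < 1 / (4 * n) / (W + 1) by positivity)
  refine ⟨W * C, by positivity, fun h F P bt T L hh hF hP hT hbt hL => ?_⟩
  have h1 : |N * (h * F * bt)| ≤ ((k : ℝ) + 1) * (h ^ 2 * P) + W * (F ^ 2 * T) := by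
    refine abs_le_of_sq_le_sq ?_ (by positivity)
    have e1 := mul_le_mul_of_nonneg_left hbt (show 0 ≤ N ^ 2 * (h * F) ^ 2 by positivity)
    have e2 : ((k : ℝ) + 1) * (h ^ 2 * P) * (W * (F ^ 2 * T)) =
        N ^ 2 * (h * F) ^ 2 * (T * P) / 4 := by
      rw [hW]; field_simp
    nlinarith [sq_nonneg (((k : ℝ) + 1) * (h ^ 2 * P) - W * (F ^ 2 * T))]
  have h2 : F ^ 3 * h ^ 2 / (2 * n) - W * (F ^ 2 * T) ≤
      ((k : ℝ) + 1) * (h ^ 2 * P) + h ^ 2 * (F * L) - N * (h * F * bt) := by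
    have := le_abs_self (N * (h * F * bt))
    have h0 := mul_le_mul_of_nonneg_left hL (show 0 ≤ h ^ 2 * F by positivity)
    have e : F ^ 3 * h ^ 2 / (2 * n) = h ^ 2 * F * (F ^ 2 / (2 * n)) := by ring
    have e' : h ^ 2 * F * L = h ^ 2 * (F * L) := by ring
    linarith
  have h3 := mul_le_mul_of_nonneg_left h2 (show 0 ≤ h ^ (J + 2 * n) * F ^ k by positivity)
  have h4 := mul_le_mul_of_nonneg_left (hY (h ^ 2 * F) T (by positivity) hT)
    (show 0 ≤ W * h ^ J by positivity)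
  have hfrac : W * (1 / (4 * n) / (W + 1)) ≤ 1 / (4 * n) := by
    rw [mul_div_assoc', div_le_iff₀ (by positivity)]
    have : (0:ℝ) ≤ 1 / (4 * n) := by positivity
    nlinarith
  have h5 := mul_le_mul_of_nonneg_right hfrac
    (show 0 ≤ h ^ J * (h ^ 2 * F) ^ (k + 2 + 1) by positivity)
  set w := h ^ (J + 2 * n + 2) * F ^ (n + 1) with hw
  have e2n : 2 * n = 2 * k + 4 := by omega
  have f1 : h ^ (J + 2 * n) * F ^ k * (F ^ 3 * h ^ 2 / (2 * n) - W * (F ^ 2 * T))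
      = 2 * (1 / (4 * n)) * w - W * h ^ J * ((h ^ 2 * F) ^ (k + 2) * T ^ 1) := by
    rw [hw, e2n, show n + 1 = k + 3 by omega]
    ring
  have f2 : h ^ (J + 2 * n) * F ^ k * (((k : ℝ) + 1) * (h ^ 2 * P) + h ^ 2 * (F * L)
      - N * (h * F * bt))
      = h ^ (J + 2 * n + 2) * ((k + 1) * F ^ k * P + F ^ (k + 1) * L)
        - N * (h ^ (J + 2 * n + 1) * (F ^ (k + 1) * bt)) := by
    ring
  have f3 : W * h ^ J * (1 / (4 * n) / (W + 1) * (h ^ 2 * F) ^ (k + 2 + 1)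
      + C * T ^ (k + 2 + 1))
      = W * (1 / (4 * n) / (W + 1)) * (h ^ J * (h ^ 2 * F) ^ (k + 2 + 1))
        + W * C * (h ^ J * T ^ (n + 1)) := by
    rw [show n + 1 = k + 2 + 1 by omega]
    ring
  have f4 : h ^ J * (h ^ 2 * F) ^ (k + 2 + 1) = w := by
    rw [hw, show n + 1 = k + 2 + 1 by omega, e2n]
    ring
  rw [f1, f2] at h3
  rw [f3, f4] at h4
  rw [f4] at h5
  linarith

end Vale.Agent.P252
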