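import Vale.Agent.P252.B.Fields
import Vale.Agent.P252.B.Sections
import Vale.Agent.P252.B.SphereAlgebra

/-!
# Constant Hessian determinant and a complete graph force a quadratic polynomial

An integral proof of the theorem of Jörgens, Calabi and Pogorelov, valid under completeness of
the graph.
-/

namespace Vale.Agent.P252

open Set Filter Topology MeasureTheory

variable {n : ℕ}

/-! ### Quadratic polynomials -/

theorem fderiv_eq_zero_of_pd {f : (Fin n → ℝ) → ℝ} {x : Fin n → ℝ} (h : ∀ i, pd i f x = 0) :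
    fderiv ℝ f x = 0 := by
  ext w
  have e : w = ∑ i, w i • (Pi.single i 1 : Fin n → ℝ) := by
    ext j
    simp [Finset.sum_apply, Pi.single_apply]
  rw [e]
  simp only [pd] at h
  simp [map_sum, map_smul, h]

theorem eq_of_pd_eq_zero {Ω : Set (Fin n → ℝ)} (hO : IsOpen Ω) (hC : Convex ℝ Ω)
    {f : (Fin n → ℝ) → ℝ} (hf : Smooth Ω f) (h : ∀ x ∈ Ω, ∀ i, pd i f x = 0)
    {x y : Fin n → ℝ} (hx : x ∈ Ω) (hy : y ∈ Ω) : f x = f y := by
  refine hC.is_const_of_fderivWithin_eq_zero (𝕜 := ℝ) (hf.differentiableOn (by simp)) ?_ hx hy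
  intro z hz
  rw [fderivWithin_of_isOpen hO hz, fderiv_eq_zero_of_pd (h z hz)]

section

variable {Ω : Set (Fin n → ℝ)} {u : (Fin n → ℝ) → ℝ}

theorem smooth_tilt (hu : Smooth Ω u) (x₀ : Fin n → ℝ) : Smooth Ω (Sect.tilt u x₀) :=
  (hu.sub contDiffOn_const).sub
    ((fderiv ℝ u x₀).contDiff.comp (contDiff_id.sub contDiff_const)).contDiffOn

theorem pd_tilt (hO : IsOpen Ω) (hu : Smooth Ω u) {x : Fin n → ℝ} (hx : x ∈ Ω)
    (x₀ : Fin n → ℝ) (i : Fin n) : pd i (Sect.tilt u x₀) x = pd i u x - pd i u x₀ := by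
  have h := ((hu.differentiableAt hO hx).hasFDerivAt.sub_const (u x₀)).sub
    ((fderiv ℝ u x₀).hasFDerivAt.comp x ((hasFDerivAt_id x).sub_const x₀))
  simp only [pd]
  rw [show Sect.tilt u x₀ = ((fun y => u y - u x₀) - ⇑(fderiv ℝ u x₀) ∘ fun y => id y - x₀)
    from rfl, h.fderiv]
  simp

theorem pd2_tilt (hO : IsOpen Ω) (hu : Smooth Ω u) {x : Fin n → ℝ} (hx : x ∈ Ω)
    (x₀ : Fin n → ℝ) (i j : Fin n) :
    pd i (pd j (Sect.tilt u x₀)) x = pd i (pd j u) x := by
  rw [pd_congr hO hx (fun y hy => pd_tilt hO hu hy x₀ j)]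
  simp only [pd, fderiv_sub_const]
  rfl

theorem integral_lin4 {α : Type*} [MeasurableSpace α] {μ : Measure α} {f g h k : α → ℝ}
    (hf : Integrable f μ) (hg : Integrable g μ) (hh : Integrable h μ) (hk : Integrable k μ)
    {a b c : ℝ} : ∫ y, (a * f y - b * g y - (c * h y + k y)) ∂μ
      = a * ∫ y, f y ∂μ - b * ∫ y, g y ∂μ - (c * ∫ y, h y ∂μ + ∫ y, k y ∂μ) := by
  have h1 : Integrable (fun y => a * f y - b * g y) μ := (hf.const_mul a).sub (hg.const_mul b)
  have h2 : Integrable (fun y => c * h y + k y) μ := (hh.const_mul c).add hk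
  rw [integral_sub h1 h2, integral_sub (hf.const_mul a) (hg.const_mul b),
    integral_add (hh.const_mul c) hk, integral_const_mul, integral_const_mul, integral_const_mul]

theorem integral_lin3 {α : Type*} [MeasurableSpace α] {μ : Measure α} {f g h : α → ℝ}
    (hf : Integrable f μ) (hg : Integrable g μ) (hh : Integrable h μ)
    {a b : ℝ} : ∫ y, (a * f y - b * g y + h y) ∂μ
      = a * ∫ y, f y ∂μ - b * ∫ y, g y ∂μ + ∫ y, h y ∂μ := by
  have h1 : Integrable (fun y => a * f y - b * g y) μ := (hf.const_mul a).sub (hg.const_mul b)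
  rw [integral_add h1 hh, integral_sub (hf.const_mul a) (hg.const_mul b), integral_const_mul,
    integral_const_mul]

/-- **Vanishing of the cubic form**: trace free cubic form and a complete graph. -/
theorem phi_eq_zero (hn : 2 ≤ n) (hO : IsOpen Ω) (hC : Convex ℝ Ω) (hu : Smooth Ω u)
    (hH : ∀ x ∈ Ω, (hessian u x).PosDef) (hg : GraphComplete Ω u) (hT : TraceFree Ω u)
    {x : Fin n → ℝ} (hx : x ∈ Ω) : phi u x = 0 := by
  obtain ⟨k, hk⟩ : ∃ k, n = k + 2 := ⟨n - 2, by omega⟩
  set J := n * n with hJ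
  obtain ⟨δ, C₁, hδ, hC₁, hgrad⟩ := gradient_algebra n k J hk
    (lt_of_le_of_lt (Nat.mul_le_mul_left n (Nat.sub_le n 1)) (Nat.lt_succ_self _))
  obtain ⟨C₂, hC₂, hcub⟩ := cubic_algebra n k J hk
  set x₀ := x
  set v := Sect.tilt u x₀ with hvdef
  have hv : Smooth Ω v := smooth_tilt hu x₀
  have hvu : ∀ y ∈ Ω, ∀ i j, pd i (pd j v) y = pd i (pd j u) y :=
    fun y hy => pd2_tilt hO hu hy x₀
  obtain ⟨Cv, hCv, hvol⟩ := Sect.volume_sect_le hO hC hu hH hx
  have hv0 : ∀ y ∈ Ω, 0 ≤ v y := fun y hy => by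
    by_cases h : y = x₀
    · simp [hvdef, h, Sect.tilt_self]
    · exact (Sect.tilt_pos hO hC hu hH hx hy h).le
  set F := phi u with hF
  have hFs : Smooth Ω F := smooth_phi hO hu hH
  have hG := smoothM_gmat hO hu hH
  set T := gradSq u v with hTdef
  have hTs : Smooth Ω T := smooth_gradSq hO hu hH hv
  set AL := fun y => gip u (fun i => cub u v i y) (dvec v y) y with hAL
  set P2 := fun y => gip u (fun i => cub u v i y) (fun i => cub u v i y) y with hP2
  set PP := fun y => gip u (dvec F y) (dvec F y) y with hPP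
  set BT := fun y => gip u (dvec v y) (dvec F y) y with hBT
  -- the three test fields
  set X1 := fun y i => T y ^ n * grad u v i y with hX1
  set X2 := fun y i => T y ^ (k + 1) * ∑ j, gmat u y i j * cub u v j y with hX2
  set X3 := fun y i => F y ^ (k + 1) * ∑ j, gmat u y i j * pd j F y with hX3
  have hX1s : ∀ i, Smooth Ω fun y => X1 y i := fun i =>
    (hTs.pow n).mul (smooth_grad hO hu hH hv i)
  have hX2s : ∀ i, Smooth Ω fun y => X2 y i := fun i =>
    (hTs.pow _).mul (ContDiffOn.sum fun j _ => (hG i j).mul (smooth_cub hO hu hH hv j))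
  have hX3s : ∀ i, Smooth Ω fun y => X3 y i := fun i =>
    (hFs.pow _).mul (ContDiffOn.sum fun j _ => (hG i j).mul (hFs.pd hO j))
  have pdpow : ∀ (f : (Fin n → ℝ) → ℝ) (q : ℕ), Smooth Ω f → ∀ y ∈ Ω, ∀ i,
      pd i (fun z => f z ^ (q + 1)) y = ((q : ℝ) + 1) * f y ^ q * pd i f y := fun f q hf y hy i => by
    rw [pd_comp (φ := fun t => t ^ (q + 1)) (hasDerivAt_pow (q + 1) (f y))
      (hf.differentiableAt hO hy)]
    simp
  have hd1 : ∀ y ∈ Ω, ∑ i, pd i (fun z => X1 z i) y
      = n * T y ^ n + n * T y ^ (k + 1) * (2 * T y - AL y) ∧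
      ∑ i, pd i v y * X1 y i = T y ^ (n + 1) := by
    intro y hy
    constructor
    · have e : ∀ i, pd i (fun z => X1 z i) y = T y ^ n * pd i (grad u v i) y
          + grad u v i y * ((n : ℝ) * T y ^ (k + 1) * (2 * pd i v y - cub u v i y)) := fun i => by
        rw [hX1, pd_mul (Smooth.differentiableAt (hTs.pow n) hO hy)
          ((smooth_grad hO hu hH hv i).differentiableAt hO hy)]
        simp only [hk]
        rw [pdpow T (k + 1) hTs y hy, hTdef, pd_gradSq hO hu hH hv hvu hy]
        push_cast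
        ring
      simp only [e, Finset.sum_add_distrib, ← Finset.mul_sum, div_grad hO hu hH hv hvu hT hy]
      have : ∑ i, grad u v i y * ((n : ℝ) * T y ^ (k + 1) * (2 * pd i v y - cub u v i y))
          = n * T y ^ (k + 1) * (2 * T y - AL y) := by
        simp only [hAL, gip, hTdef, gradSq, grad, dvec, mul_sub, Finset.mul_sum,
          Finset.sum_sub_distrib, Finset.sum_mul]
        congr 1 <;>
          exact Finset.sum_congr rfl fun i _ => Finset.sum_congr rfl fun j _ => by ring
      rw [this]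
      ring
    · rw [pow_succ, hTdef, gradSq, Finset.mul_sum]
      exact Finset.sum_congr rfl fun i _ => by simp only [hX1, hTdef, gradSq]; ring
  have hd2 : ∀ y ∈ Ω, ∑ i, pd i (fun z => X2 z i) y
      = -(T y ^ (k + 1) * cubS u v y) + (k + 1) * T y ^ k * (2 * AL y - P2 y) ∧
      ∑ i, pd i v y * X2 y i = T y ^ (k + 1) * AL y := by
    intro y hy
    constructor
    · have e : ∀ i, pd i (fun z => X2 z i) y =
          T y ^ (k + 1) * pd i (fun z => ∑ j, gmat u z i j * cub u v j z) y
          + (∑ j, gmat u y i j * cub u v j y) *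
            (((k : ℝ) + 1) * T y ^ k * (2 * pd i v y - cub u v i y)) := fun i => by
        rw [hX2, pd_mul (Smooth.differentiableAt (hTs.pow _) hO hy)
          (DifferentiableAt.fun_sum fun j _ => ((hG i j).differentiableAt hO hy).fun_mul
            ((smooth_cub hO hu hH hv j).differentiableAt hO hy)),
          pdpow T k hTs y hy, hTdef, pd_gradSq hO hu hH hv hvu hy]
      simp only [e, Finset.sum_add_distrib, ← Finset.mul_sum, div_cub hO hu hH hv hvu hT hy]
      have : ∑ i, (∑ j, gmat u y i j * cub u v j y) *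
          (((k : ℝ) + 1) * T y ^ k * (2 * pd i v y - cub u v i y))
          = (k + 1) * T y ^ k * (2 * AL y - P2 y) := by
        simp only [hAL, hP2, gip, dvec, mul_sub, Finset.mul_sum, Finset.sum_sub_distrib,
          Finset.sum_mul]
        congr 1
        · rw [Finset.sum_comm]
          exact Finset.sum_congr rfl fun i _ => Finset.sum_congr rfl fun j _ => by
            rw [gmat_symm (Ω := Ω) hH hy j i]; ring
        · exact Finset.sum_congr rfl fun i _ => Finset.sum_congr rfl fun j _ => by ring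
      rw [this]
      ring
    · simp only [hX2, hAL, gip, dvec, Finset.mul_sum]
      rw [Finset.sum_comm]
      exact Finset.sum_congr rfl fun i _ => Finset.sum_congr rfl fun j _ => by
        rw [gmat_symm (Ω := Ω) hH hy j i]; ring
  have hd3 : ∀ y ∈ Ω, ∑ i, pd i (fun z => X3 z i) y
      = (k + 1) * F y ^ k * PP y + F y ^ (k + 1) * lap u F y ∧
      ∑ i, pd i v y * X3 y i = F y ^ (k + 1) * BT y := by
    intro y hy
    constructor
    · have e : ∀ i, pd i (fun z => X3 z i) y =
          F y ^ (k + 1) * ∑ j, (gmat u y i j * pd i (pd j F) y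
            + pd j F y * pd i (fun z => gmat u z i j) y)
          + (∑ j, gmat u y i j * pd j F y) * (((k : ℝ) + 1) * F y ^ k * pd i F y) := fun i => by
        rw [hX3, pd_mul (Smooth.differentiableAt (hFs.pow _) hO hy)
          (DifferentiableAt.fun_sum fun j _ => ((hG i j).differentiableAt hO hy).fun_mul
            ((hFs.pd hO j).differentiableAt hO hy)),
          pdpow F k hFs y hy,
          pd_sum _ (fun j _ => ((hG i j).differentiableAt hO hy).fun_mul
            ((hFs.pd hO j).differentiableAt hO hy))]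
        simp only [pd_mul ((hG i _).differentiableAt hO hy)
          ((hFs.pd hO _).differentiableAt hO hy)]
      simp only [e, Finset.sum_add_distrib, mul_add, ← Finset.mul_sum]
      have e2 : ∑ i, ∑ j, pd j F y * pd i (fun z => gmat u z i j) y = 0 := by
        rw [Finset.sum_comm]
        simp only [← Finset.mul_sum, sum_pd_gmat hO hu hH hT hy, mul_zero, Finset.sum_const_zero]
      have e3 : ∑ i, (∑ j, gmat u y i j * pd j F y) * (((k : ℝ) + 1) * F y ^ k * pd i F y)
          = (k + 1) * F y ^ k * PP y := by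
        simp only [hPP, gip, dvec, Finset.mul_sum, Finset.sum_mul]
        exact Finset.sum_congr rfl fun i _ => Finset.sum_congr rfl fun j _ => by ring
      rw [e2, e3, lap]
      ring
    · simp only [hX3, hBT, gip, dvec, Finset.mul_sum]
      exact Finset.sum_congr rfl fun i _ => Finset.sum_congr rfl fun j _ => by ring
  -- the integral estimate
  have hv1 : ContDiffOn ℝ 1 v Ω := hv.of_le (WithTop.coe_le_coe.2 le_top)
  have main : ∀ R, 1 ≤ R → 1 / (4 * (n : ℝ)) *
      ∫ y in Sect.sect Ω u x₀ R, (R - v y) ^ (J + 2 * n + 2) * F y ^ (n + 1)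
      ≤ C₂ / δ * C₁ * (R ^ (J + 1 + n) * (Cv * R ^ n)) := by
    intro R hR
    set K := Sect.sect Ω u x₀ R with hK
    have hKc : IsCompact K := Sect.isCompact_sect hO hC hu hH hg hx (by linarith)
    have hKO : K ⊆ Ω := fun y hy => hy.1
    have hint : ∀ {f : (Fin n → ℝ) → ℝ}, ContinuousOn f Ω → IntegrableOn f K :=
      fun hf => (hf.mono hKO).integrableOn_compact hKc
    have hhc : ∀ q : ℕ, ContinuousOn (fun y => (R - v y) ^ q) Ω := fun q =>
      (continuousOn_const.sub hv.continuousOn).pow q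
    have cut : ∀ (X : (Fin n → ℝ) → Fin n → ℝ), (∀ i, Smooth Ω fun y => X y i) → ∀ N : ℕ, 2 ≤ N →
        ∫ y in K, ((R - v y) ^ N * ∑ i, pd i (fun z => X z i) y
          - N * (R - v y) ^ (N - 1) * ∑ i, pd i v y * X y i) = 0 ∧
        IntegrableOn (fun y => (R - v y) ^ N * ∑ i, pd i (fun z => X z i) y
          - N * (R - v y) ^ (N - 1) * ∑ i, pd i v y * X y i) K := fun X hX N hN =>
      ⟨integral_cutoff_div hO hv1 hKc (fun i => (hX i).of_le (WithTop.coe_le_coe.2 le_top)) hN,
        hint (((hhc N).mul (continuousOn_finsetSum _ fun i _ => ((hX i).pd hO i).continuousOn)).sub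
          ((continuousOn_const.mul (hhc (N - 1))).mul
            (continuousOn_finsetSum _ fun i _ =>
              (hv.pd hO i).continuousOn.mul (hX i).continuousOn)))⟩
    have hJ2 : 2 ≤ J + 1 := by nlinarith
    obtain ⟨i1, j1⟩ := cut X1 hX1s (J + 1) hJ2
    obtain ⟨i2, j2⟩ := cut X2 hX2s (J + 2) (by omega)
    obtain ⟨i3, j3⟩ := cut X3 hX3s (J + 2 * n + 2) (by omega)
    have hTint : IntegrableOn (fun y => (R - v y) ^ J * T y ^ (n + 1)) K :=
      hint ((hhc J).mul (hTs.continuousOn.pow (n + 1)))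
    have hFint : IntegrableOn (fun y => (R - v y) ^ (J + 2 * n + 2) * F y ^ (n + 1)) K :=
      hint ((hhc (J + 2 * n + 2)).mul (hFs.continuousOn.pow (n + 1)))
    have hpure := hint (hhc (J + 1 + n))
    have step1 : δ * ∫ y in K, (R - v y) ^ J * T y ^ (n + 1)
        ≤ C₁ * ∫ y in K, (R - v y) ^ (J + 1 + n) := by
      have hnn : 0 ≤ ∫ y in K, (C₁ * (R - v y) ^ (J + 1 + n) - δ * ((R - v y) ^ J * T y ^ (n + 1))
          - (((J : ℝ) + 2) / n * ((R - v y) ^ (J + 1) * ∑ i, pd i (fun z => X1 z i) y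
              - ((J + 1 : ℕ) : ℝ) * (R - v y) ^ (J + 1 - 1) * ∑ i, pd i v y * X1 y i)
            + ((R - v y) ^ (J + 2) * ∑ i, pd i (fun z => X2 z i) y
              - ((J + 2 : ℕ) : ℝ) * (R - v y) ^ (J + 2 - 1) * ∑ i, pd i v y * X2 y i))) := by
        refine setIntegral_nonneg hKc.measurableSet fun y hy => ?_
        obtain ⟨a1, b1⟩ := hd1 y hy.1
        obtain ⟨a2, b2⟩ := hd2 y hy.1
        rw [a1, b1, a2, b2]
        simp only [Nat.add_sub_cancel, show J + 2 - 1 = J + 1 from rfl]
        have := hgrad (R - v y) (T y) (AL y) (P2 y) (cubS u v y) (sub_nonneg.2 hy.2)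
          (by rw [hTdef, gradSq_eq]; exact (gip_facts hH hy.1 (dvec v y) (dvec v y)).2)
          (gip_facts hH hy.1 (fun i => cub u v i y) (dvec v y)).2
          (by
            have := (gip_facts hH hy.1 (fun i => cub u v i y) (dvec v y)).1
            rw [hTdef, gradSq_eq]
            simp only [hAL, hP2]
            linarith)
          (cub_sq_le hO hu hH hT hn hy.1)
        push_cast
        linarith
      rw [integral_lin4 hpure hTint j1 j2, i1, i2] at hnn
      linarith
    have step2 : 1 / (4 * (n : ℝ)) * ∫ y in K, (R - v y) ^ (J + 2 * n + 2) * F y ^ (n + 1)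
        ≤ C₂ * ∫ y in K, (R - v y) ^ J * T y ^ (n + 1) := by
      have hnn : 0 ≤ ∫ y in K, (C₂ * ((R - v y) ^ J * T y ^ (n + 1))
          - 1 / (4 * (n : ℝ)) * ((R - v y) ^ (J + 2 * n + 2) * F y ^ (n + 1))
          + ((R - v y) ^ (J + 2 * n + 2) * ∑ i, pd i (fun z => X3 z i) y
              - ((J + 2 * n + 2 : ℕ) : ℝ) * (R - v y) ^ (J + 2 * n + 2 - 1)
                * ∑ i, pd i v y * X3 y i)) := by
        refine setIntegral_nonneg hKc.measurableSet fun y hy => ?_
        obtain ⟨a3, b3⟩ := hd3 y hy.1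
        rw [a3, b3, show J + 2 * n + 2 - 1 = J + 2 * n + 1 from rfl]
        have := hcub (R - v y) (F y) (PP y) (BT y) (T y) (lap u F y) (sub_nonneg.2 hy.2)
          (phi_nonneg hO hu hH hy.1).1 (gip_facts hH hy.1 (dvec F y) (dvec F y)).2
          (by rw [hTdef, gradSq_eq]; exact (gip_facts hH hy.1 _ (dvec v y)).2)
          (by rw [hTdef, gradSq_eq]; exact (gip_facts hH hy.1 (dvec v y) (dvec F y)).1)
          (calabi hO hu hH hT hy.1)
        push_cast
        linarith
      rw [integral_lin3 hTint hFint j3, i3] at hnn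
      linarith
    have step3 : ∫ y in K, (R - v y) ^ (J + 1 + n) ≤ R ^ (J + 1 + n) * (Cv * R ^ n) := by
      calc ∫ y in K, (R - v y) ^ (J + 1 + n) ≤ ∫ _y in K, R ^ (J + 1 + n) :=
            setIntegral_mono_on hpure (integrableOn_const hKc.measure_lt_top.ne) hKc.measurableSet
              fun y hy => pow_le_pow_left₀ (sub_nonneg.2 hy.2) (by linarith [hv0 y hy.1]) _
        _ = volume.real K * R ^ (J + 1 + n) := by rw [setIntegral_const, smul_eq_mul]
        _ ≤ _ := by
            rw [mul_comm]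
            exact mul_le_mul_of_nonneg_left (hvol R hR) (by positivity)
    calc _ ≤ C₂ * ∫ y in K, (R - v y) ^ J * T y ^ (n + 1) := step2
      _ ≤ C₂ * (C₁ / δ * ∫ y in K, (R - v y) ^ (J + 1 + n)) := by
          refine mul_le_mul_of_nonneg_left ?_ hC₂
          rw [div_mul_eq_mul_div, le_div_iff₀ hδ, mul_comm]
          exact step1
      _ ≤ C₂ * (C₁ / δ * (R ^ (J + 1 + n) * (Cv * R ^ n))) := by gcongr
      _ = _ := by ring
  -- let `R` tend to infinity
  set r : ℝ := 1 with hr
  have hKr : IsCompact (Sect.sect Ω u x₀ r) := Sect.isCompact_sect hO hC hu hH hg hx zero_le_one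
  set D := 4 * (n : ℝ) * (C₂ / δ * C₁ * Cv) * 2 ^ (J + 2 * n + 2) with hD
  have hzero : ∫ y in Sect.sect Ω u x₀ r, F y ^ (n + 1) = 0 := by
    have hb : ∀ R, 2 ≤ R → ∫ y in Sect.sect Ω u x₀ r, F y ^ (n + 1) ≤ D / R := by
      intro R hR
      have hR1 : 1 ≤ R := by linarith
      have hKc : IsCompact (Sect.sect Ω u x₀ R) :=
        Sect.isCompact_sect hO hC hu hH hg hx (by linarith)
      have hsub : Sect.sect Ω u x₀ r ⊆ Sect.sect Ω u x₀ R :=
        fun y hy => ⟨hy.1, hy.2.trans hR1⟩
      have hi : IntegrableOn (fun y => (R - v y) ^ (J + 2 * n + 2) * F y ^ (n + 1))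
          (Sect.sect Ω u x₀ R) :=
        ((((continuousOn_const.sub hv.continuousOn).pow _).mul (hFs.continuousOn.pow _)).mono
          fun y hy => hy.1).integrableOn_compact hKc
      have h1 : (R / 2) ^ (J + 2 * n + 2) * ∫ y in Sect.sect Ω u x₀ r, F y ^ (n + 1) ≤
          ∫ y in Sect.sect Ω u x₀ R, (R - v y) ^ (J + 2 * n + 2) * F y ^ (n + 1) := by
        rw [← integral_const_mul]
        refine le_trans (setIntegral_mono_on ?_ (hi.mono_set hsub) hKr.measurableSet fun y hy => ?_)
          (setIntegral_mono_set hi ?_ (Eventually.of_forall hsub))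
        · exact (((hFs.continuousOn.pow _).mono fun y hy => hy.1).integrableOn_compact hKr).const_mul _
        · have : v y ≤ r := hy.2
          exact mul_le_mul_of_nonneg_right (pow_le_pow_left₀ (by linarith) (by linarith) _)
            (pow_nonneg (phi_nonneg hO hu hH hy.1).1 _)
        · refine (ae_restrict_iff' hKc.measurableSet).2 (Eventually.of_forall fun y hy => ?_)
          exact mul_nonneg (pow_nonneg (sub_nonneg.2 hy.2) _)
            (pow_nonneg (phi_nonneg hO hu hH hy.1).1 _)
      have h2 := (mul_le_mul_of_nonneg_left h1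
        (show (0:ℝ) ≤ 1 / (4 * (n : ℝ)) by positivity)).trans (main R hR1)
      have hn0 : (0:ℝ) < n := Nat.cast_pos.2 (by omega)
      rw [le_div_iff₀ (by linarith)]
      refine le_of_mul_le_mul_left ?_ (show (0:ℝ) < R ^ (J + 1 + n) * R ^ n by positivity)
      rw [div_mul_eq_mul_div, div_le_iff₀ (by positivity), div_pow] at h2
      rw [div_mul_eq_mul_div, one_mul, div_le_iff₀ (by positivity)] at h2
      rw [hD]
      ring_nf at h2 ⊢
      linarith
    refine le_antisymm ?_ (setIntegral_nonneg hKr.measurableSet fun y hy =>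
      pow_nonneg (phi_nonneg hO hu hH hy.1).1 _)
    exact ge_of_tendsto (f := fun R : ℝ => D / R) (x := atTop)
      (tendsto_const_nhds.div_atTop tendsto_id) (eventually_atTop.2 ⟨2, hb⟩)
  by_contra hne
  set U := {y ∈ Ω | v y < r} with hU
  have hUo : IsOpen U := hv.continuousOn.isOpen_inter_preimage hO isOpen_Iio
  have hxU : x₀ ∈ U := ⟨hx, by simp [hvdef, Sect.tilt_self, hr]⟩
  have hae : F =ᵐ[volume.restrict U] fun _ => (0:ℝ) := by
    have h := (setIntegral_eq_zero_iff_of_nonneg_ae
      ((ae_restrict_iff' hKr.measurableSet).2 (Eventually.of_forall fun y hy =>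
        pow_nonneg (phi_nonneg hO hu hH hy.1).1 (n + 1)))
      (((hFs.continuousOn.pow (n + 1)).mono fun y hy => hy.1).integrableOn_compact hKr)).1 hzero
    have h' := ae_restrict_of_ae_restrict_of_subset
      (show U ⊆ Sect.sect Ω u x₀ r from fun y hy => ⟨hy.1, hy.2.le⟩) h
    filter_upwards [h'] with y hy
    exact (pow_eq_zero_iff (Nat.succ_ne_zero n)).1 hy
  exact hne (Measure.eqOn_open_of_ae_eq hae hUo (hFs.continuousOn.mono fun y hy => hy.1)
    continuousOn_const hxU)

/-- **Jörgens–Calabi–Pogorelov under Euclidean completeness.** A smooth function with positive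
definite Hessian of constant determinant on an open convex set, whose graph is complete, is a
quadratic polynomial on the whole space. -/
theorem quadratic_of_ldet_const (hn : 2 ≤ n) (hO : IsOpen Ω) (hC : Convex ℝ Ω)
    (hne : Ω.Nonempty) (hu : Smooth Ω u) (hH : ∀ x ∈ Ω, (hessian u x).PosDef)
    (hg : GraphComplete Ω u) {c : ℝ} (hc : ∀ x ∈ Ω, ldet u x = c) :
    Ω = univ ∧ ∃ (A : Matrix (Fin n) (Fin n) ℝ) (b : Fin n → ℝ) (e : ℝ),
      ∀ x, u x = dotProduct x (Matrix.mulVec A x) + dotProduct b x + e := by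
  obtain ⟨x₀, hx₀⟩ := hne
  have hT := traceFree_of_ldet_const hO hu hH hc
  have hA : ∀ x ∈ Ω, ∀ i j k, pd i (pd j (pd k u)) x = 0 := fun x hx i j k => by
    have h := (phi_nonneg hO hu hH hx).2 (phi_eq_zero hn hO hC hu hH hg hT hx) i
    exact congrFun (congrFun h j) k
  set H := fun i j => pd i (pd j u) x₀ with hHdef
  have hconst : ∀ x ∈ Ω, ∀ i j, pd i (pd j u) x = H i j := fun x hx i j =>
    eq_of_pd_eq_zero hO hC ((hu.pd hO j).pd hO i) (fun y hy l => hA y hy l i j) hx hx₀
  set b₀ : Fin n → ℝ := fun i => pd i u x₀ - ∑ j, H i j * x₀ j with hb₀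
  set q : (Fin n → ℝ) → ℝ := fun x => (∑ i, ∑ j, x i * (H i j / 2) * x j) + ∑ i, b₀ i * x i
    with hq
  have hlin : ∀ (a : Fin n) (x : Fin n → ℝ) (i : Fin n),
      pd i (fun y : Fin n → ℝ => y a) x = if a = i then 1 else 0 := fun a x i => by
    simp [pd, (hasFDerivAt_apply a x).fderiv, Pi.single_apply]
  have hqs : ContDiff ℝ ((⊤ : ℕ∞) : WithTop ℕ∞) q := by rw [hq]; fun_prop
  have hqd : ∀ x i, pd i q x = ∑ j, H i j * x j + b₀ i := fun x i => by
    have hd : ∀ a, DifferentiableAt ℝ (fun y : Fin n → ℝ => y a) x := fun a => by fun_prop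
    rw [hq, pd_add (by fun_prop) (by fun_prop), pd_sum _ (fun a _ => by fun_prop),
      pd_sum _ (fun a _ => by fun_prop)]
    simp only [pd_const_mul (hd _), hlin, mul_ite, mul_one, mul_zero, Finset.sum_ite_eq',
      Finset.mem_univ, if_true]
    congr 1
    have : ∀ a, pd i (fun y : Fin n → ℝ => ∑ j, y a * (H a j / 2) * y j) x
        = ∑ j, (x a * (H a j / 2) * (if j = i then 1 else 0)
            + x j * ((H a j / 2) * if a = i then 1 else 0)) := fun a => by
      rw [pd_sum _ (fun j _ => by fun_prop)]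
      refine Finset.sum_congr rfl fun j _ => ?_
      rw [pd_mul (by fun_prop) (hd j), hlin,
        show (fun y : Fin n → ℝ => y a * (H a j / 2)) = fun y => (H a j / 2) * y a from
          funext fun y => mul_comm _ _, pd_const_mul (hd a), hlin]
    simp only [this, mul_ite, mul_one, mul_zero, Finset.sum_add_distrib, Finset.sum_ite_eq',
      Finset.sum_ite_irrel, Finset.sum_const_zero, Finset.mem_univ, if_true]
    rw [← Finset.sum_add_distrib]
    refine Finset.sum_congr rfl fun j _ => ?_
    rw [show H j i = H i j from pd_comm hO hu hx₀ j i]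
    ring
  set e := u x₀ - q x₀ with he
  have hd1 : ∀ x ∈ Ω, ∀ i, pd i u x = pd i q x := fun x hx i => by
    have key := eq_of_pd_eq_zero hO hC ((hu.pd hO i).sub (Smooth.pd (hqs.contDiffOn (s := Ω)) hO i))
      (fun y hy l => by
        rw [pd_congr hO hy (g := fun z => pd i u z + (-1) * pd i q z)
          (fun z _ => show pd i u z - pd i q z = _ by ring)]
        have e1 := (hu.pd hO i).differentiableAt hO hy
        have e2 := (Smooth.pd (hqs.contDiffOn (s := Ω)) hO i).differentiableAt hO hy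
        rw [pd_add e1 (e2.const_mul _), pd_const_mul e2, hconst y hy,
          pd_congr hO hy (g := fun z => ∑ j, H i j * z j + b₀ i) (fun z _ => hqd z i),
          pd_add (by fun_prop) (by fun_prop), pd_sum _ (fun a _ => by fun_prop)]
        have hda : ∀ a, DifferentiableAt ℝ (fun z : Fin n → ℝ => z a) y := fun a => by fun_prop
        simp only [pd_const_mul (hda _), hlin, mul_ite, mul_one, mul_zero, Finset.sum_ite_eq',
          Finset.mem_univ, if_true]
        rw [show H l i = H i l from pd_comm hO hu hx₀ l i]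
        simp [pd])
      hx hx₀
    simp only [hqd x₀, hb₀] at key
    linarith
  have heq : ∀ x ∈ Ω, u x = q x + e := fun x hx => by
    have key := eq_of_pd_eq_zero hO hC (hu.sub hqs.contDiffOn)
      (fun y hy l => by
        rw [pd_congr hO hy (g := fun z => u z + (-1) * q z)
          (fun z _ => show u z - q z = _ by ring),
          pd_add (hu.differentiableAt hO hy) ((hqs.differentiable (by simp) y).const_mul _),
          pd_const_mul (hqs.differentiable (by simp) y), hd1 y hy]
        ring)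
      hx hx₀
    linarith
  have huniv : Ω = univ := by
    refine IsClopen.eq_univ ⟨isClosed_of_closure_subset fun y hy => ?_, hO⟩ ⟨x₀, hx₀⟩
    obtain ⟨xs, hxs, hlim⟩ := mem_closure_iff_seq_limit.1 hy
    set w := fun z => q z + e - u x₀ - fderiv ℝ u x₀ (z - x₀) with hw
    have hwc : Continuous w := by
      have := hqs.continuous
      fun_prop
    have hev : ∀ᶠ m in atTop, xs m ∈ Sect.sect Ω u x₀ (w y + 1) := by
      filter_upwards [((hwc.tendsto y).comp hlim).eventually (eventually_lt_nhds (lt_add_one (w y)))]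
        with m hm
      refine ⟨hxs m, ?_⟩
      rw [Sect.tilt, heq _ (hxs m)]
      exact hm.le
    exact Sect.closure_sect_subset hO hC hu hH hg hx₀ _ (mem_closure_of_tendsto hlim hev)
  refine ⟨huniv, fun i j => H i j / 2, b₀, e, fun x => ?_⟩
  rw [heq x (huniv ▸ mem_univ x), hq]
  simp only [dotProduct, Matrix.mulVec, Finset.mul_sum, mul_assoc]

end

end Vale.Agent.P252
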