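import Mathlib

/-!
# Pointwise algebra for Calabi's inequality

`A` is a totally symmetric three-tensor and `D` a totally symmetric four-tensor in an orthonormal
frame.
-/

namespace Vale.Agent.P252.Cal

open Finset

variable {n : ℕ}

/-- A totally symmetric three-tensor. -/
structure Sym3 (A : Fin n → Fin n → Fin n → ℝ) : Prop where
  s12 : ∀ i j k, A i j k = A j i k
  s23 : ∀ i j k, A i j k = A i k j

/-- A totally symmetric four-tensor. -/
structure Sym4 (D : Fin n → Fin n → Fin n → Fin n → ℝ) : Prop where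
  s12 : ∀ i j k l, D i j k l = D j i k l
  s23 : ∀ i j k l, D i j k l = D i k j l
  s34 : ∀ i j k l, D i j k l = D i j l k

variable (A : Fin n → Fin n → Fin n → ℝ) (D : Fin n → Fin n → Fin n → Fin n → ℝ)

/-- A slice of `A`. -/
def mat (k : Fin n) : Matrix (Fin n) (Fin n) ℝ := Matrix.of (A k)

/-- A slice of `D`. -/
def mat4 (p k : Fin n) : Matrix (Fin n) (Fin n) ℝ := Matrix.of (D p k)

/-- `A²`. -/
def sQ (a b : Fin n) : ℝ := (mat A a * mat A b).trace

/-- `|S|²`. -/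
def sS : ℝ := ∑ a, ∑ b, sQ A a b ^ 2

/-- The tetrahedral contraction. -/
def sR : ℝ := ∑ i, ∑ j, ∑ k, A i j k * (mat A i * mat A j * mat A k).trace

/-- The mixed contraction. -/
def sM : ℝ := ∑ i, ∑ j, ∑ k, A i j k * (mat A i * mat4 D j k).trace

/-- `|D|²`. -/
def sD : ℝ := ∑ i, ∑ j, ∑ k, ∑ l, D i j k l ^ 2

/-- The pairing `∑ₐ A i j a * A k l a`. -/
def sP (i j k l : Fin n) : ℝ := ∑ a, A i j a * A k l a

variable {A D}

theorem mat_transpose (hA : Sym3 A) (k : Fin n) : (mat A k).transpose = mat A k := by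
  ext a b
  exact (hA.s23 k a b).symm

theorem sum2_comm (f : Fin n → Fin n → ℝ) : ∑ i, ∑ j, f i j = ∑ i, ∑ j, f j i := Finset.sum_comm

theorem sum4_swap23 (f : Fin n → Fin n → Fin n → Fin n → ℝ) :
    ∑ i, ∑ j, ∑ k, ∑ l, f i j k l = ∑ i, ∑ j, ∑ k, ∑ l, f i k j l :=
  Finset.sum_congr rfl fun _ _ => Finset.sum_comm

theorem sum4_swap34 (f : Fin n → Fin n → Fin n → Fin n → ℝ) :
    ∑ i, ∑ j, ∑ k, ∑ l, f i j k l = ∑ i, ∑ j, ∑ k, ∑ l, f i j l k :=
  Finset.sum_congr rfl fun _ _ => Finset.sum_congr rfl fun _ _ => Finset.sum_comm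

theorem sum_mat_sq (hA : Sym3 A) : ∑ p, mat A p * mat A p = Matrix.of (sQ A) := by
  ext a b
  simp only [Matrix.sum_apply, Matrix.mul_apply, Matrix.of_apply, sQ, Matrix.trace,
    Matrix.diag_apply, mat]
  refine Finset.sum_congr rfl fun p _ => Finset.sum_congr rfl fun c _ => ?_
  rw [hA.s12 p a c, hA.s12 p c b, hA.s23 c p b, hA.s12 c b p]

theorem trace_mat3_rot (i j k : Fin n) :
    (mat A i * mat A j * mat A k).trace = (mat A j * mat A k * mat A i).trace := by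
  rw [Matrix.mul_assoc, Matrix.trace_mul_comm]

theorem trace_mat3_flip (hA : Sym3 A) (i j k : Fin n) :
    (mat A i * mat A j * mat A k).trace = (mat A k * mat A j * mat A i).trace := by
  rw [← Matrix.trace_transpose, Matrix.transpose_mul, Matrix.transpose_mul, mat_transpose hA,
    mat_transpose hA, mat_transpose hA, Matrix.mul_assoc]

theorem trace_mat3_swap (hA : Sym3 A) (i j k : Fin n) :
    (mat A j * mat A i * mat A k).trace = (mat A i * mat A j * mat A k).trace := by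
  rw [trace_mat3_flip hA j i k, trace_mat3_rot k i j]

theorem sum_trace_mat4_mul (hA : Sym3 A) (hD : Sym4 D) :
    ∑ p, ∑ k, (mat4 D p k * (mat A p * mat A k)).trace = sM A D := by
  simp only [sM, Matrix.trace, Matrix.diag_apply, Matrix.mul_apply, mat, mat4, Matrix.of_apply,
    Finset.mul_sum, ← Fintype.sum_prod_type']
  refine Fintype.sum_equiv
    ⟨fun ⟨p, k, a, b, c⟩ => ⟨c, p, b, k, a⟩,
      fun ⟨c, p, b, k, a⟩ => ⟨p, k, a, b, c⟩,
      fun _ => rfl, fun _ => rfl⟩ _ _ ?_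
  rintro ⟨p, k, a, b, c⟩
  simp only [Equiv.coe_fn_mk]
  rw [hA.s12 c p b, hA.s23 p c b, hA.s12 k c a]
  rw [show D p b a k = D p k a b by
    rw [hD.s34 p b a k, hD.s23 p b k a, hD.s34 p k b a]]
  ring

theorem sum_mul_trace_mat4 (hA : Sym3 A) :
    ∑ p, ∑ k, ∑ l, A p k l * (mat4 D p k * mat A l).trace = sM A D := by
  rw [sM, Finset.sum_congr rfl (fun p _ => Finset.sum_comm), Finset.sum_comm]
  refine Finset.sum_congr rfl fun l _ => Finset.sum_congr rfl fun p _ =>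
    Finset.sum_congr rfl fun k _ => ?_
  rw [Matrix.trace_mul_comm, hA.s23 p k l, hA.s12 p l k]

theorem sum_trace_mat4chain (hA : Sym3 A) :
    ∑ p, ∑ k, (mat A p * mat A k * (mat A p * mat A k)).trace = sR A := by
  simp only [sR, Matrix.trace, Matrix.diag_apply, Matrix.mul_apply, mat, Matrix.of_apply,
    Finset.mul_sum, Finset.sum_mul, ← Fintype.sum_prod_type']
  refine Fintype.sum_equiv
    ⟨fun ⟨p, k, a, c, d, b⟩ => ⟨p, a, b, c, k, d⟩,
      fun ⟨p, a, b, c, k, d⟩ => ⟨p, k, a, c, d, b⟩,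
      fun _ => rfl, fun _ => rfl⟩ _ _ ?_
  rintro ⟨p, k, a, c, d, b⟩
  simp only [Equiv.coe_fn_mk]
  rw [hA.s12 b k c, hA.s12 k d a, hA.s23 d k a, hA.s12 d a k]
  ring

theorem sum_P_sq : ∑ i, ∑ j, ∑ k, ∑ l, sP A i j k l ^ 2 =
    ∑ a, ∑ b, (∑ i, ∑ j, A i j a * A i j b) ^ 2 := by
  simp only [sP, pow_two, Finset.mul_sum, Finset.sum_mul, ← Fintype.sum_prod_type']
  refine Fintype.sum_equiv
    ⟨fun ⟨i, j, k, l, a, b⟩ => ⟨b, a, ⟨k, l⟩, i, j⟩,
      fun ⟨b, a, ⟨k, l⟩, i, j⟩ => ⟨i, j, k, l, a, b⟩,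
      fun _ => rfl, fun _ => rfl⟩ _ _ ?_
  rintro ⟨i, j, k, l, a, b⟩
  simp only [Equiv.coe_fn_mk]
  ring

theorem sum_P_sq' (hA : Sym3 A) : ∑ i, ∑ j, ∑ k, ∑ l, sP A i j k l ^ 2 = sS A := by
  rw [sum_P_sq, sS]
  refine Finset.sum_congr rfl fun a _ => Finset.sum_congr rfl fun b _ => ?_
  congr 1
  simp only [sQ, Matrix.trace, Matrix.diag_apply, Matrix.mul_apply, mat, Matrix.of_apply]
  refine Finset.sum_congr rfl fun i _ => Finset.sum_congr rfl fun j _ => ?_
  rw [hA.s23 i j a, hA.s12 i a j, hA.s23 i j b, hA.s12 i b j, hA.s23 b i j]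

theorem sum_P_cross (hA : Sym3 A) :
    ∑ i, ∑ j, ∑ k, ∑ l, sP A i j k l * sP A i k j l = sR A := by
  simp only [sP, sR, Matrix.trace, Matrix.diag_apply, Matrix.mul_apply, mat, Matrix.of_apply,
    Finset.mul_sum, Finset.sum_mul, ← Fintype.sum_prod_type']
  refine Fintype.sum_equiv
    ⟨fun ⟨i, j, k, l, b, a⟩ => ⟨i, j, a, k, l, b⟩,
      fun ⟨i, j, a, k, l, b⟩ => ⟨i, j, k, l, b, a⟩,
      fun _ => rfl, fun _ => rfl⟩ _ _ ?_
  rintro ⟨i, j, k, l, b, a⟩
  simp only [Equiv.coe_fn_mk]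
  rw [hA.s12 a l k, hA.s23 k l a, hA.s12 l a k, hA.s12 k a l, hA.s23 a k l, hA.s12 a l k,
    hA.s23 j b l]
  ring

theorem sum_D_P (hA : Sym3 A) (hD : Sym4 D) :
    ∑ i, ∑ j, ∑ k, ∑ l, D i j k l * sP A i j k l = sM A D := by
  simp only [sP, sM, Matrix.trace, Matrix.diag_apply, Matrix.mul_apply, mat, mat4, Matrix.of_apply,
    Finset.mul_sum, ← Fintype.sum_prod_type']
  refine Fintype.sum_equiv
    ⟨fun ⟨i, j, k, l, a⟩ => ⟨a, k, l, i, j⟩,
      fun ⟨a, k, l, i, j⟩ => ⟨i, j, k, l, a⟩,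
      fun _ => rfl, fun _ => rfl⟩ _ _ ?_
  rintro ⟨i, j, k, l, a⟩
  simp only [Equiv.coe_fn_mk]
  rw [hA.s23 i j a, hA.s12 i a j, hA.s23 k l a, hA.s12 k a l,
    show D k l j i = D i j k l by
      rw [hD.s34 k l j i, hD.s23 k l i j, hD.s12 k i l j, hD.s34 i k l j, hD.s23 i k j l]]
  ring

theorem sP_symm34 (hA : Sym3 A) (i j k l : Fin n) : sP A i j k l = sP A i j l k := by
  simp only [sP]
  exact Finset.sum_congr rfl fun a _ => by rw [hA.s12 k l a]

/-- Completion of the square in Calabi's identity. -/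
theorem sum_sq_completion (hA : Sym3 A) (hD : Sym4 D) :
    ∑ i, ∑ j, ∑ k, ∑ l, (D i j k l - (sP A i j k l + sP A i k j l + sP A i l j k) / 2) ^ 2
      = sD D - 3 * sM A D + 3 / 4 * sS A + 3 / 2 * sR A := by
  have e : ∀ i j k l, (D i j k l - (sP A i j k l + sP A i k j l + sP A i l j k) / 2) ^ 2 =
      D i j k l ^ 2 - D i j k l * sP A i j k l - D i j k l * sP A i k j l
      - D i j k l * sP A i l j k + sP A i j k l ^ 2 / 4 + sP A i k j l ^ 2 / 4
      + sP A i l j k ^ 2 / 4 + sP A i j k l * sP A i k j l / 2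
      + sP A i j k l * sP A i l j k / 2 + sP A i k j l * sP A i l j k / 2 := fun i j k l => by ring
  simp only [e, Finset.sum_add_distrib, Finset.sum_sub_distrib, ← Finset.sum_div]
  have h1 := sum_D_P hA hD
  have h2 : ∑ i, ∑ j, ∑ k, ∑ l, D i j k l * sP A i k j l = sM A D := by
    rw [sum4_swap23, ← h1]
    simp only [← hD.s23]
  have h3 : ∑ i, ∑ j, ∑ k, ∑ l, D i j k l * sP A i l j k = sM A D := by
    rw [sum4_swap34, ← h2]
    simp only [← hD.s34]
  have h4 := sum_P_sq' hA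
  have h5 : ∑ i, ∑ j, ∑ k, ∑ l, sP A i k j l ^ 2 = sS A := by rw [sum4_swap23]; exact h4
  have h6 : ∑ i, ∑ j, ∑ k, ∑ l, sP A i l j k ^ 2 = sS A := by rw [sum4_swap34]; exact h5
  have h7 := sum_P_cross hA
  have h8 : ∑ i, ∑ j, ∑ k, ∑ l, sP A i j k l * sP A i l j k = sR A := by
    rw [sum4_swap34]; simp only [← sP_symm34 hA]; exact h7
  have h9 : ∑ i, ∑ j, ∑ k, ∑ l, sP A i k j l * sP A i l j k = sR A := by
    rw [sum4_swap23, ← h8]
    refine Finset.sum_congr rfl fun i _ => Finset.sum_congr rfl fun j _ =>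
      Finset.sum_congr rfl fun k _ => Finset.sum_congr rfl fun l _ => ?_
    rw [sP_symm34 hA i l k j]
  rw [h1, h2, h3, h4, h5, h6, h7, h8, h9, sD]
  ring

theorem sR_le (hA : Sym3 A) : sR A ≤ sS A := by
  have h : 0 ≤ ∑ i, ∑ j, ∑ k, ∑ l, (sP A i j k l - sP A i k j l) ^ 2 := by positivity
  simp only [sub_sq, Finset.sum_add_distrib, Finset.sum_sub_distrib, mul_assoc,
    ← Finset.mul_sum] at h
  rw [sum_P_sq' hA, sum_P_cross hA, ← sum4_swap23, sum_P_sq' hA] at h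
  linarith

theorem sS_ge : (∑ a, sQ A a a) ^ 2 ≤ n * sS A := by
  calc (∑ a, sQ A a a) ^ 2 ≤ n * ∑ a, sQ A a a ^ 2 := by
        simpa using sq_sum_le_card_mul_sum_sq (s := (univ : Finset (Fin n))) (f := fun a => sQ A a a)
    _ ≤ n * sS A := by
        refine mul_le_mul_of_nonneg_left ?_ (Nat.cast_nonneg n)
        exact Finset.sum_le_sum fun a _ =>
          Finset.single_le_sum (f := fun b => sQ A a b ^ 2) (fun b _ => sq_nonneg _) (mem_univ a)

/-- Calabi's inequality, algebraic form. -/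
theorem calabi_algebra (hA : Sym3 A) (hD : Sym4 D) :
    (∑ a, sQ A a a) ^ 2 / (2 * n) ≤ 2 * sD D - 6 * sM A D + 2 * sR A + 3 * sS A := by
  have h0 : 0 ≤ ∑ i, ∑ j, ∑ k, ∑ l,
      (D i j k l - (sP A i j k l + sP A i k j l + sP A i l j k) / 2) ^ 2 := by positivity
  rw [sum_sq_completion hA hD] at h0
  have h1 := sR_le hA
  have h2 := sS_ge (A := A)
  have h3 : 0 ≤ sS A := by simp only [sS]; positivity
  rcases Nat.eq_zero_or_pos n with rfl | hn
  · simp; linarith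
  · rw [div_le_iff₀ (by positivity)]
    have : (0:ℝ) < n := Nat.cast_pos.2 hn
    nlinarith

/-- The Frobenius bound for a symmetric trace-free matrix applied to a vector. -/
theorem traceFree_mulVec_le (hn : 2 ≤ n) (K : Matrix (Fin n) (Fin n) ℝ)
    (hK : ∀ i j, K i j = K j i) (h0 : K.trace = 0) (y : Fin n → ℝ) :
    (n : ℝ) * ∑ i, K.mulVec y i ^ 2 ≤ ((n : ℝ) - 1) * ((∑ i, y i ^ 2) * ∑ i, ∑ j, K i j ^ 2) := by
  set z := K.mulVec y with hz
  set s := ∑ i, y i ^ 2 with hs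
  set ν := ∑ i, y i * z i with hν
  set Z := ∑ i, z i ^ 2 with hZ
  set F := ∑ i, ∑ j, K i j ^ 2 with hF
  have hn1 : (1:ℝ) ≤ (n:ℝ) - 1 := by
    have : (2:ℝ) ≤ (n:ℝ) := by exact_mod_cast hn
    linarith
  have hzK : ∀ i, ∑ j, K i j * y j = z i := fun i => rfl
  have hzK' : ∀ j, ∑ i, K i j * y i = z j := fun j => by
    rw [← hzK j]; exact Finset.sum_congr rfl fun i _ => by rw [hK i j]
  have htr : ∑ i, K i i = 0 := h0
  set c := ν / ((n:ℝ) - 1) with hc
  have key : 0 ≤ ∑ i, ∑ j, (s ^ 2 * K i j - s * (y i * z j + z i * y j) + ν * (y i * y j)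
      + c * ((if i = j then s else 0) - y i * y j)) ^ 2 := by positivity
  have expand : ∀ i j, (s ^ 2 * K i j - s * (y i * z j + z i * y j) + ν * (y i * y j)
      + c * ((if i = j then s else 0) - y i * y j)) ^ 2 =
      s ^ 4 * K i j ^ 2 + (-(2 * s ^ 3)) * ((K i j * y i) * z j)
      + (-(2 * s ^ 3)) * ((K i j * y j) * z i) + (2 * (ν - c) * s ^ 2) * ((K i j * y j) * y i)
      + s ^ 2 * (y i ^ 2 * z j ^ 2) + s ^ 2 * (z i ^ 2 * y j ^ 2)
      + (2 * s ^ 2) * ((y i * z i) * (y j * z j)) + (-(2 * s * (ν - c))) * (y i ^ 2 * (y j * z j))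
      + (-(2 * s * (ν - c))) * ((y i * z i) * y j ^ 2) + (ν - c) ^ 2 * (y i ^ 2 * y j ^ 2)
      + (if i = j then 2 * c * s ^ 3 * K i i - 4 * c * s ^ 2 * (y i * z i)
          + 2 * c * s * (ν - c) * y i ^ 2 + c ^ 2 * s ^ 2 else 0) := fun i j => by
    by_cases h : i = j
    · subst h; simp only [if_true]; ring
    · simp only [h, if_false]; ring
  simp only [expand, Finset.sum_add_distrib, ← Finset.mul_sum, Finset.sum_ite_eq, mem_univ,
    if_true, Finset.sum_sub_distrib, ← Finset.sum_mul, hzK, ← hs, ← hν, ← hZ, ← hF, htr] at key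
  rw [Finset.sum_comm (f := fun i j => K i j * y i * z j)] at key
  simp only [← Finset.sum_mul, hzK', ← pow_two, ← hZ, Finset.sum_const, Finset.card_univ,
    Fintype.card_fin, nsmul_eq_mul] at key
  have hν1 : ∑ i, z i * y i = ν := Finset.sum_congr rfl fun i _ => mul_comm _ _
  rw [hν1] at key
  have hCS : ν ^ 2 ≤ s * Z := Finset.sum_mul_sq_le_sq_mul_sq univ y z
  have hc' : c * ((n:ℝ) - 1) = ν := div_mul_cancel₀ _ (by linarith)
  have hkey : 0 ≤ s ^ 2 * (s ^ 2 * F - 2 * s * Z + ν ^ 2 - c * ν) := by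
    refine key.trans (le_of_eq ?_)
    linear_combination (c * s ^ 2) * hc'
  rcases (show 0 ≤ s by positivity).lt_or_eq with hs0 | hs0
  · have h1 : 0 ≤ s ^ 2 * F - 2 * s * Z + ν ^ 2 - c * ν :=
      (mul_nonneg_iff_of_pos_left (by positivity)).1 hkey
    have h2 := mul_le_mul_of_nonneg_left hCS (show 0 ≤ (n:ℝ) - 2 by linarith)
    have h3 := mul_nonneg (show (0:ℝ) ≤ (n:ℝ) - 1 by linarith) h1
    have h4 : ((n:ℝ) - 1) * (c * ν) = ν ^ 2 := by rw [← mul_assoc, mul_comm _ c, hc']; ring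
    refine le_of_mul_le_mul_left ?_ hs0
    nlinarith
  · have hy : ∀ i, y i = 0 := fun i => by
      have := (Finset.sum_eq_zero_iff_of_nonneg (fun i _ => sq_nonneg (y i))).1 (hs ▸ hs0.symm) i
        (mem_univ i)
      simpa using this
    have : y = 0 := funext hy
    simp [hZ, hz, this, hs, Matrix.mulVec_zero]

end Vale.Agent.P252.Cal
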