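import Vale.Agent.P252.B.Jet
import Vale.Agent.P252.B.Algebra

/-!
# Calabi's differential inequality at a point where the Hessian is the identity
-/

namespace Vale.Agent.P252

open Set Filter Topology Finset

variable {n : ℕ} {Ω : Set (Fin n → ℝ)} {x : Fin n → ℝ} {u : (Fin n → ℝ) → ℝ}

/-- Third derivatives. -/
noncomputable def A3 (u : (Fin n → ℝ) → ℝ) (i j k : Fin n) : (Fin n → ℝ) → ℝ :=
  pd i (pd j (pd k u))

/-- A slice of the third derivatives. -/
noncomputable def amat (u : (Fin n → ℝ) → ℝ) (k : Fin n) (x : Fin n → ℝ) :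
    Matrix (Fin n) (Fin n) ℝ :=
  Matrix.of fun a b => A3 u k a b x

/-- A slice of the fourth derivatives. -/
noncomputable def nmat (u : (Fin n → ℝ) → ℝ) (i k : Fin n) (x : Fin n → ℝ) :
    Matrix (Fin n) (Fin n) ℝ :=
  Matrix.of fun a b => pd i (A3 u k a b) x

/-- The inverse Hessian as a matrix. -/
noncomputable def gmat (u : (Fin n → ℝ) → ℝ) (x : Fin n → ℝ) : Matrix (Fin n) (Fin n) ℝ :=
  (hessian u x)⁻¹

/-- `G A_k`. -/
noncomputable def mmat (u : (Fin n → ℝ) → ℝ) (k : Fin n) (x : Fin n → ℝ) :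
    Matrix (Fin n) (Fin n) ℝ :=
  gmat u x * amat u k x

/-- The squared norm of the cubic form. -/
noncomputable def phi (u : (Fin n → ℝ) → ℝ) (x : Fin n → ℝ) : ℝ :=
  ∑ k, ∑ l, gmat u x k l * (mmat u k x * mmat u l x).trace

/-- The operator `∑ G_ij ∂_ij`. -/
noncomputable def lap (u f : (Fin n → ℝ) → ℝ) (x : Fin n → ℝ) : ℝ :=
  ∑ i, ∑ j, gmat u x i j * pd i (pd j f) x

/-- The cubic form is trace free. -/
def TraceFree (Ω : Set (Fin n → ℝ)) (u : (Fin n → ℝ) → ℝ) : Prop :=
  ∀ x ∈ Ω, ∀ k, (mmat u k x).trace = 0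

theorem traceFree_of_ldet_const (hO : IsOpen Ω) (hu : Smooth Ω u)
    (hH : ∀ y ∈ Ω, (hessian u y).PosDef) {c : ℝ} (hc : ∀ y ∈ Ω, ldet u y = c) :
    TraceFree Ω u := by
  intro y hy k
  have h := pd_ldet hO hu hH hy k
  rw [pd_congr hO hy hc] at h
  have h0 : pd k (fun _ : Fin n → ℝ => c) y = 0 := by simp [pd]
  rw [h0] at h
  rw [Matrix.trace, h]
  simp only [Matrix.diag_apply, mmat, Matrix.mul_apply, amat, Matrix.of_apply, A3, gmat]
  refine Finset.sum_congr rfl fun a _ => Finset.sum_congr rfl fun b _ => ?_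
  rw [pd3_comm hO hu hy k b a]
  rfl

/-! ### Matrix calculus -/

/-- The entrywise partial derivative. -/
noncomputable def pdM (i : Fin n) (M : (Fin n → ℝ) → Matrix (Fin n) (Fin n) ℝ) (x : Fin n → ℝ) :
    Matrix (Fin n) (Fin n) ℝ :=
  Matrix.of fun a b => pd i (fun y => M y a b) x

/-- Smoothness of all entries. -/
def SmoothM (Ω : Set (Fin n → ℝ)) (M : (Fin n → ℝ) → Matrix (Fin n) (Fin n) ℝ) : Prop :=
  ∀ a b, Smooth Ω fun y => M y a b

variable {M N : (Fin n → ℝ) → Matrix (Fin n) (Fin n) ℝ}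

theorem SmoothM.mul (hM : SmoothM Ω M) (hN : SmoothM Ω N) : SmoothM Ω fun y => M y * N y := by
  intro a b
  simp only [Matrix.mul_apply]
  exact ContDiffOn.sum fun c _ => (hM a c).mul (hN c b)

theorem SmoothM.neg (hM : SmoothM Ω M) : SmoothM Ω fun y => -M y := fun a b => (hM a b).neg

theorem SmoothM.add (hM : SmoothM Ω M) (hN : SmoothM Ω N) : SmoothM Ω fun y => M y + N y :=
  fun a b => (hM a b).add (hN a b)

theorem SmoothM.trace (hM : SmoothM Ω M) : Smooth Ω fun y => (M y).trace :=
  ContDiffOn.sum fun a _ => hM a a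

theorem pdM_congr (hO : IsOpen Ω) (hx : x ∈ Ω) (h : ∀ y ∈ Ω, M y = N y) (i : Fin n) :
    pdM i M x = pdM i N x := by
  ext a b
  exact pd_congr hO hx (fun y hy => by rw [h y hy]) i

theorem pdM_mul (hO : IsOpen Ω) (hx : x ∈ Ω) (hM : SmoothM Ω M) (hN : SmoothM Ω N) (i : Fin n) :
    pdM i (fun y => M y * N y) x = pdM i M x * N x + M x * pdM i N x := by
  ext a b
  simp only [pdM, Matrix.of_apply, Matrix.add_apply, Matrix.mul_apply]
  rw [pd_sum (F := fun c y => M y a c * N y c b) Finset.univ
    (fun c _ => ((hM a c).differentiableAt hO hx).fun_mul ((hN c b).differentiableAt hO hx)),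
    ← Finset.sum_add_distrib]
  refine Finset.sum_congr rfl fun c _ => ?_
  rw [pd_mul ((hM a c).differentiableAt hO hx) ((hN c b).differentiableAt hO hx)]
  ring

theorem pdM_add (hO : IsOpen Ω) (hx : x ∈ Ω) (hM : SmoothM Ω M) (hN : SmoothM Ω N) (i : Fin n) :
    pdM i (fun y => M y + N y) x = pdM i M x + pdM i N x := by
  ext a b
  simp only [pdM, Matrix.of_apply, Matrix.add_apply]
  exact pd_add ((hM a b).differentiableAt hO hx) ((hN a b).differentiableAt hO hx) i

theorem pdM_neg (i : Fin n) : pdM i (fun y => -M y) x = -pdM i M x := by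
  ext a b
  simp [pdM, pd]

theorem pd_trace (hO : IsOpen Ω) (hx : x ∈ Ω) (hM : SmoothM Ω M) (i : Fin n) :
    pd i (fun y => (M y).trace) x = (pdM i M x).trace := by
  simp only [Matrix.trace, Matrix.diag_apply, pdM, Matrix.of_apply]
  exact pd_sum _ (fun c _ => (hM c c).differentiableAt hO hx) i

/-! ### The derivatives of `G` and `A` -/

variable (hO : IsOpen Ω) (hu : Smooth Ω u) (hH : ∀ y ∈ Ω, (hessian u y).PosDef)
include hO hu

theorem smoothM_amat (k : Fin n) : SmoothM Ω (amat u k) := fun a b =>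
  ((hu.pd hO b).pd hO a).pd hO k

theorem smoothM_nmat (i k : Fin n) : SmoothM Ω (nmat u i k) := fun a b =>
  (((hu.pd hO b).pd hO a).pd hO k).pd hO i

omit hO hu in
theorem pdM_amat (i k : Fin n) : pdM i (amat u k) x = nmat u i k x := rfl

theorem A3_sym (hx : x ∈ Ω) (i j k : Fin n) :
    A3 u i j k x = A3 u j i k x ∧ A3 u i j k x = A3 u i k j x :=
  ⟨pd_comm hO (hu.pd hO k) hx i j, pd3_comm hO hu hx i j k⟩

theorem sym3_A3 (hx : x ∈ Ω) : Cal.Sym3 fun i j k => A3 u i j k x :=
  ⟨fun i j k => (A3_sym hO hu hx i j k).1, fun i j k => (A3_sym hO hu hx i j k).2⟩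

theorem sym4_pd_A3 (hx : x ∈ Ω) : Cal.Sym4 fun i j k l => pd i (A3 u j k l) x :=
  ⟨fun i j k l => pd_comm hO ((hu.pd hO l).pd hO k) hx i j,
    fun i j k l => pd_congr hO hx (fun _ hy => (A3_sym hO hu hy j k l).1) i,
    fun i j k l => pd_congr hO hx (fun _ hy => (A3_sym hO hu hy j k l).2) i⟩

omit hu in
theorem pd_move3 {f : (Fin n → ℝ) → ℝ} (hf : Smooth Ω f) (hx : x ∈ Ω) (p k : Fin n) :
    pd p (pd p (pd k f)) x = pd k (pd p (pd p f)) x := by
  rw [pd_congr hO hx (fun _ hy => pd_comm hO hf hy p k) p, pd_comm hO (hf.pd hO p) hx p k]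

theorem fifth_comm (hx : x ∈ Ω) (p k a b : Fin n) :
    pd p (pd p (A3 u k a b)) x = pd k (pd a (A3 u b p p)) x := by
  have h1 : ∀ y ∈ Ω, pd p (pd p (pd a (pd b u))) y = pd a (pd b (pd p (pd p u))) y := fun y hy => by
    rw [pd_move3 hO (hu.pd hO b) hy]
    exact pd_congr hO hy (fun _ hz => pd_move3 hO hu hz p b) a
  simp only [A3]
  rw [pd_move3 hO ((hu.pd hO b).pd hO a) hx p k]
  exact pd_congr hO hx h1 k

include hH

theorem smoothM_gmat : SmoothM Ω (gmat u) := fun a b => smooth_ginv hO hu hH a b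

theorem smoothM_mmat (k : Fin n) : SmoothM Ω (mmat u k) :=
  (smoothM_gmat hO hu hH).mul (smoothM_amat hO hu k)

theorem pdM_gmat (hx : x ∈ Ω) (i : Fin n) :
    pdM i (gmat u) x = -(gmat u x * amat u i x * gmat u x) := by
  ext j k
  simp only [pdM, Matrix.of_apply, Matrix.neg_apply]
  rw [show (fun y => gmat u y j k) = ginv u j k from rfl, pd_ginv hO hu hH hx]
  simp only [Matrix.mul_apply, amat, Matrix.of_apply, A3, Finset.sum_mul]
  rw [Finset.sum_comm]
  rfl

theorem pdM_mmat (hx : x ∈ Ω) (i k : Fin n) :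
    pdM i (mmat u k) x =
      -(gmat u x * amat u i x * gmat u x) * amat u k x + gmat u x * nmat u i k x := by
  rw [show mmat u k = fun y => gmat u y * amat u k y from rfl,
    pdM_mul hO hx (smoothM_gmat hO hu hH) (smoothM_amat hO hu k), pdM_gmat hO hu hH hx,
    pdM_amat]

/-- `-G A_i G`. -/
theorem smoothM_dgmat (i : Fin n) :
    SmoothM Ω fun y => -(gmat u y * amat u i y * gmat u y) :=
  (((smoothM_gmat hO hu hH).mul (smoothM_amat hO hu i)).mul (smoothM_gmat hO hu hH)).neg

section Point

variable (h1 : hessian u x = 1)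
include h1

omit hO hu hH in
theorem gmat_one : gmat u x = 1 := by simp [gmat, h1]

theorem pdM2_gmat (hx : x ∈ Ω) (p q : Fin n) :
    pdM p (fun y => -(gmat u y * amat u q y * gmat u y)) x =
      amat u p x * amat u q x - nmat u p q x + amat u q x * amat u p x := by
  have hG := smoothM_gmat hO hu hH
  have hA := smoothM_amat hO hu q
  rw [pdM_neg, pdM_mul (M := fun y => gmat u y * amat u q y) hO hx (hG.mul hA) hG,
    pdM_mul hO hx hG hA, pdM_gmat hO hu hH hx, pdM_amat, gmat_one h1]
  simp only [one_mul, mul_one]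
  noncomm_ring

theorem pdM2_mmat (hx : x ∈ Ω) (p q k : Fin n) :
    pdM p (fun y => -(gmat u y * amat u q y * gmat u y) * amat u k y
        + gmat u y * nmat u q k y) x =
      (amat u p x * amat u q x - nmat u p q x + amat u q x * amat u p x) * amat u k x
        - amat u q x * nmat u p k x - amat u p x * nmat u q k x
        + pdM p (nmat u q k) x := by
  have hG := smoothM_gmat hO hu hH
  have hN := smoothM_nmat hO hu q k
  have hdG := smoothM_dgmat hO hu hH q
  rw [pdM_add hO hx (hdG.mul (smoothM_amat hO hu k)) (hG.mul hN),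
    pdM_mul (M := fun y => -(gmat u y * amat u q y * gmat u y)) hO hx hdG (smoothM_amat hO hu k),
    pdM2_gmat hO hu hH h1 hx, pdM_amat, pdM_mul hO hx hG hN, pdM_gmat hO hu hH hx,
    gmat_one h1]
  simp only [one_mul, mul_one]
  noncomm_ring

variable (hT : TraceFree Ω u)
include hT

theorem trace_pdM_mmat (hx : x ∈ Ω) (i k : Fin n) :
    (nmat u i k x).trace = (amat u i x * amat u k x).trace := by
  have h : pd i (fun y => (mmat u k y).trace) x = 0 := by
    rw [pd_congr hO hx (g := fun _ => (0:ℝ)) (fun y hy => hT y hy k)]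
    simp [pd]
  rw [pd_trace hO hx (smoothM_mmat hO hu hH k), pdM_mmat hO hu hH hx, gmat_one h1] at h
  simp only [one_mul, mul_one, neg_mul, Matrix.trace_add, Matrix.trace_neg] at h
  linarith

theorem trace_pdM2_mmat (hx : x ∈ Ω) (i j k : Fin n) :
    (pdM i (nmat u j k) x).trace =
      (amat u j x * nmat u i k x).trace + (amat u i x * nmat u j k x).trace
        + (amat u k x * nmat u i j x).trace - (amat u i x * amat u j x * amat u k x).trace
        - (amat u j x * amat u i x * amat u k x).trace := by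
  have hM := smoothM_mmat hO hu hH k
  have h0 : ∀ y ∈ Ω, (-(gmat u y * amat u j y * gmat u y) * amat u k y
      + gmat u y * nmat u j k y).trace = 0 := fun y hy => by
    have h : pd j (fun z => (mmat u k z).trace) y = 0 := by
      rw [pd_congr hO hy (g := fun _ => (0:ℝ)) (fun z hz => hT z hz k)]
      simp [pd]
    rwa [pd_trace hO hy hM, pdM_mmat hO hu hH hy] at h
  have hs : SmoothM Ω fun y => -(gmat u y * amat u j y * gmat u y) * amat u k y
      + gmat u y * nmat u j k y :=
    ((smoothM_dgmat hO hu hH j).mul (smoothM_amat hO hu k)).add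
      ((smoothM_gmat hO hu hH).mul (smoothM_nmat hO hu j k))
  have h : pd i (fun y => (-(gmat u y * amat u j y * gmat u y) * amat u k y
      + gmat u y * nmat u j k y).trace) x = 0 := by
    rw [pd_congr hO hx (g := fun _ => (0:ℝ)) h0]
    simp [pd]
  rw [pd_trace hO hx hs, pdM2_mmat hO hu hH h1 hx] at h
  simp only [Matrix.trace_add, Matrix.trace_sub, add_mul, sub_mul,
    Matrix.trace_mul_comm (nmat u i j x)] at h
  linarith

/-- Calabi's inequality at a point with identity Hessian. -/
theorem calabi_point (hx : x ∈ Ω) : phi u x ^ 2 / (2 * n) ≤ lap u (phi u) x := by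
  set A := fun i j k => A3 u i j k x with hAdef
  set D := fun i j k l => pd i (A3 u j k l) x with hDdef
  have hA : Cal.Sym3 A := sym3_A3 hO hu hx
  have hD : Cal.Sym4 D := sym4_pd_A3 hO hu hx
  have hG := smoothM_gmat hO hu hH
  have hM := smoothM_mmat hO hu hH
  have eA : ∀ k, amat u k x = Cal.mat A k := fun k => rfl
  have eN : ∀ i k, nmat u i k x = Cal.mat4 D i k := fun i k => rfl
  have hphi : phi u x = ∑ a, Cal.sQ A a a := by
    simp [phi, mmat, gmat_one h1, Matrix.one_apply, eA, Cal.sQ]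
  -- the contraction of the fifth derivatives
  have hW : ∑ p, ∑ k, (pdM p (nmat u p k) x * amat u k x).trace
      = 3 * Cal.sM A D - 2 * Cal.sR A := by
    have e1 : ∑ p, ∑ k, (pdM p (nmat u p k) x * amat u k x).trace =
        ∑ k, ∑ a, ∑ b, A k b a * (pdM k (nmat u a b) x).trace := by
      simp only [Matrix.trace, Matrix.diag_apply, Matrix.mul_apply, pdM, nmat, amat,
        Matrix.of_apply, Finset.mul_sum]
      rw [Finset.sum_comm]
      refine Finset.sum_congr rfl fun k _ => ?_
      rw [Finset.sum_comm]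
      refine Finset.sum_congr rfl fun a _ => ?_
      rw [Finset.sum_comm]
      refine Finset.sum_congr rfl fun b _ => Finset.sum_congr rfl fun p _ => ?_
      rw [show (fun y => pd p (A3 u k a b) y) = pd p (A3 u k a b) from rfl,
        fifth_comm hO hu hx]
      exact mul_comm _ _
    rw [e1]
    simp only [trace_pdM2_mmat hO hu hH h1 hT hx, eA, eN, mul_sub, mul_add, Finset.sum_add_distrib,
      Finset.sum_sub_distrib]
    have s1 : ∑ k, ∑ a, ∑ b, A k b a * (Cal.mat A a * Cal.mat4 D k b).trace = Cal.sM A D := by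
      rw [Finset.sum_comm, Cal.sM]
      refine Finset.sum_congr rfl fun a _ => Finset.sum_congr rfl fun k _ =>
        Finset.sum_congr rfl fun b _ => ?_
      rw [hA.s23 k b a, hA.s12 k a b]
    have s2 : ∑ k, ∑ a, ∑ b, A k b a * (Cal.mat A k * Cal.mat4 D a b).trace = Cal.sM A D := by
      rw [Cal.sM]
      refine Finset.sum_congr rfl fun a _ => Finset.sum_congr rfl fun k _ =>
        Finset.sum_congr rfl fun b _ => ?_
      rw [hA.s23 a b k]
    have s3 : ∑ k, ∑ a, ∑ b, A k b a * (Cal.mat A b * Cal.mat4 D k a).trace = Cal.sM A D := by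
      rw [Finset.sum_congr rfl (fun k _ => Finset.sum_comm), Finset.sum_comm, Cal.sM]
      refine Finset.sum_congr rfl fun b _ => Finset.sum_congr rfl fun k _ =>
        Finset.sum_congr rfl fun a _ => ?_
      rw [hA.s12 k b a]
    have s4 : ∑ k, ∑ a, ∑ b, A k b a * (Cal.mat A k * Cal.mat A a * Cal.mat A b).trace
        = Cal.sR A := by
      rw [Cal.sR]
      refine Finset.sum_congr rfl fun a _ => Finset.sum_congr rfl fun k _ =>
        Finset.sum_congr rfl fun b _ => ?_
      rw [hA.s23 a b k]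
    have s5 : ∑ k, ∑ a, ∑ b, A k b a * (Cal.mat A a * Cal.mat A k * Cal.mat A b).trace
        = Cal.sR A := by
      rw [← s4]
      simp only [Cal.trace_mat3_swap hA]
    rw [s1, s2, s3, s4, s5]
    ring
  -- expansion of the Laplacian
  have hterm : ∀ k l, Smooth Ω fun y => gmat u y k l * (mmat u k y * mmat u l y).trace :=
    fun k l => (hG k l).mul ((hM k).mul (hM l)).trace
  have hd1 : ∀ p, ∀ y ∈ Ω, pd p (phi u) y = ∑ k, ∑ l,
      ((-(gmat u y * amat u p y * gmat u y)) k l * (mmat u k y * mmat u l y).trace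
        + gmat u y k l *
          ((-(gmat u y * amat u p y * gmat u y) * amat u k y + gmat u y * nmat u p k y) * mmat u l y
            + mmat u k y * (-(gmat u y * amat u p y * gmat u y) * amat u l y
              + gmat u y * nmat u p l y)).trace) := by
    intro p y hy
    rw [show phi u = fun y => ∑ k, ∑ l, gmat u y k l * (mmat u k y * mmat u l y).trace from rfl,
      pd_sum (F := fun k y => ∑ l, gmat u y k l * (mmat u k y * mmat u l y).trace) _
        (fun k _ => DifferentiableAt.fun_sum fun l _ => (hterm k l).differentiableAt hO hy)]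
    refine Finset.sum_congr rfl fun k _ => ?_
    rw [pd_sum (F := fun l y => gmat u y k l * (mmat u k y * mmat u l y).trace) _
      (fun l _ => (hterm k l).differentiableAt hO hy)]
    refine Finset.sum_congr rfl fun l _ => ?_
    rw [pd_mul ((hG k l).differentiableAt hO hy) (((hM k).mul (hM l)).trace.differentiableAt hO hy),
      pd_trace hO hy ((hM k).mul (hM l)), pdM_mul hO hy (hM k) (hM l), pdM_mmat hO hu hH hy,
      pdM_mmat hO hu hH hy,
      show pd p (fun z => gmat u z k l) y = pdM p (gmat u) y k l from rfl, pdM_gmat hO hu hH hy]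
    ring
  set T1 := fun p k => -(Cal.mat A p) * Cal.mat A k + Cal.mat4 D p k with hT1
  set T2 := fun p k => (Cal.mat A p * Cal.mat A p - Cal.mat4 D p p + Cal.mat A p * Cal.mat A p)
    * Cal.mat A k - Cal.mat A p * Cal.mat4 D p k - Cal.mat A p * Cal.mat4 D p k
    + pdM p (nmat u p k) x with hT2
  have hd2 : ∀ p, pd p (pd p (phi u)) x = ∑ k, ∑ l,
      ((Cal.mat A p * Cal.mat A p - Cal.mat4 D p p + Cal.mat A p * Cal.mat A p) k l * Cal.sQ A k l
        + 2 * (-(A p k l)) * ((T1 p k * Cal.mat A l).trace + (Cal.mat A k * T1 p l).trace)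
        + (1 : Matrix (Fin n) (Fin n) ℝ) k l * ((T2 p k * Cal.mat A l).trace
          + (Cal.mat A k * T2 p l).trace + 2 * (T1 p k * T1 p l).trace)) := by
    intro p
    have hP : ∀ k, SmoothM Ω fun y => -(gmat u y * amat u p y * gmat u y) * amat u k y
        + gmat u y * nmat u p k y := fun k =>
      ((smoothM_dgmat hO hu hH p).mul (smoothM_amat hO hu k)).add
        (hG.mul (smoothM_nmat hO hu p k))
    have hQ := smoothM_dgmat hO hu hH p
    rw [pd_congr hO hx (hd1 p)]
    have ha : ∀ k l, Smooth Ω fun y =>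
        (-(gmat u y * amat u p y * gmat u y)) k l * (mmat u k y * mmat u l y).trace :=
      fun k l => (hQ k l).mul ((hM k).mul (hM l)).trace
    have hb : ∀ k l, Smooth Ω fun y => gmat u y k l *
          ((-(gmat u y * amat u p y * gmat u y) * amat u k y + gmat u y * nmat u p k y) * mmat u l y
            + mmat u k y * (-(gmat u y * amat u p y * gmat u y) * amat u l y
              + gmat u y * nmat u p l y)).trace :=
      fun k l => (hG k l).mul (((hP k).mul (hM l)).add ((hM k).mul (hP l))).trace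
    rw [pd_sum _ (fun k _ => DifferentiableAt.fun_sum fun l _ =>
      ((ha k l).differentiableAt hO hx).fun_add ((hb k l).differentiableAt hO hx))]
    refine Finset.sum_congr rfl fun k _ => ?_
    rw [pd_sum _ (fun l _ => ((ha k l).differentiableAt hO hx).fun_add ((hb k l).differentiableAt hO hx))]
    refine Finset.sum_congr rfl fun l _ => ?_
    rw [pd_add ((ha k l).differentiableAt hO hx) ((hb k l).differentiableAt hO hx),
      pd_mul ((hQ k l).differentiableAt hO hx) (((hM k).mul (hM l)).trace.differentiableAt hO hx),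
      pd_mul ((hG k l).differentiableAt hO hx)
        ((((hP k).mul (hM l)).add ((hM k).mul (hP l))).trace.differentiableAt hO hx),
      pd_trace hO hx ((hM k).mul (hM l)), pd_trace hO hx (((hP k).mul (hM l)).add ((hM k).mul (hP l))),
      pdM_add hO hx ((hP k).mul (hM l)) ((hM k).mul (hP l)), pdM_mul hO hx (hM k) (hM l),
      pdM_mul hO hx (hP k) (hM l), pdM_mul hO hx (hM k) (hP l), pdM_mmat hO hu hH hx,
      pdM_mmat hO hu hH hx, pdM2_mmat hO hu hH h1 hx, pdM2_mmat hO hu hH h1 hx,
      show pd p (fun z => gmat u z k l) x = pdM p (gmat u) x k l from rfl, pdM_gmat hO hu hH hx,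
      show pd p (fun z => (-(gmat u z * amat u p z * gmat u z)) k l) x
        = pdM p (fun z => -(gmat u z * amat u p z * gmat u z)) x k l from rfl,
      pdM2_gmat hO hu hH h1 hx]
    simp only [mmat, gmat_one h1, one_mul, mul_one, eA, eN, T1, T2, Matrix.trace_add,
      Matrix.neg_apply, Cal.sQ, show Cal.mat A p k l = A p k l from rfl]
    ring
  have hlap : lap u (phi u) x = ∑ p, pd p (pd p (phi u)) x := by
    simp [lap, gmat_one h1, Matrix.one_apply]
  rw [hlap, hphi]
  simp only [hd2, Finset.sum_add_distrib, Matrix.one_apply, ite_mul, one_mul, zero_mul,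
    Finset.sum_ite_eq, Finset.mem_univ, if_true]
  have hTS : ∑ p, Cal.mat4 D p p = Matrix.of (Cal.sQ A) := by
    ext a b
    simp only [Matrix.sum_apply, Cal.mat4, Matrix.of_apply, Cal.sQ]
    rw [← eA, ← eA, ← trace_pdM_mmat hO hu hH h1 hT hx]
    refine Finset.sum_congr rfl fun p _ => ?_
    show D p p a b = D a b p p
    rw [hD.s23 p p a b, hD.s12 p a p b, hD.s34 a p p b, hD.s23 a p b p]
  have hS2 : ∑ p, (Cal.mat A p * Cal.mat A p - Cal.mat4 D p p + Cal.mat A p * Cal.mat A p)
      = Matrix.of (Cal.sQ A) := by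
    rw [Finset.sum_add_distrib, Finset.sum_sub_distrib, Cal.sum_mat_sq hA, hTS]
    simp
  have c1 : ∑ p, ∑ k, ∑ l, (Cal.mat A p * Cal.mat A p - Cal.mat4 D p p
      + Cal.mat A p * Cal.mat A p) k l * Cal.sQ A k l = Cal.sS A := by
    rw [Finset.sum_comm, Finset.sum_congr rfl (fun k _ => Finset.sum_comm), Cal.sS]
    refine Finset.sum_congr rfl fun k _ => Finset.sum_congr rfl fun l _ => ?_
    rw [← Finset.sum_mul, ← Matrix.sum_apply, hS2, Matrix.of_apply, pow_two]
  have t1 : ∀ p k l, (T1 p k * Cal.mat A l).trace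
      = -(Cal.mat A p * Cal.mat A k * Cal.mat A l).trace + (Cal.mat4 D p k * Cal.mat A l).trace :=
    fun p k l => by simp [T1, add_mul]
  have c2 : ∑ p, ∑ k, ∑ l, 2 * -(A p k l) *
      ((T1 p k * Cal.mat A l).trace + (Cal.mat A k * T1 p l).trace)
      = -4 * Cal.sM A D + 4 * Cal.sR A := by
    have e2 : ∑ p, ∑ k, ∑ l, A p k l * (Cal.mat A k * T1 p l).trace
        = ∑ p, ∑ k, ∑ l, A p k l * (T1 p k * Cal.mat A l).trace := by
      refine Finset.sum_congr rfl fun p _ => ?_
      rw [Finset.sum_comm]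
      refine Finset.sum_congr rfl fun l _ => Finset.sum_congr rfl fun k _ => ?_
      rw [hA.s23 p k l, Matrix.trace_mul_comm]
    have e3 : ∑ p, ∑ k, ∑ l, A p k l * (T1 p k * Cal.mat A l).trace
        = Cal.sM A D - Cal.sR A := by
      simp only [t1, mul_add, mul_neg, Finset.sum_add_distrib, Finset.sum_neg_distrib,
        Cal.sum_mul_trace_mat4 hA]
      rw [show ∑ p, ∑ k, ∑ l, A p k l * (Cal.mat A p * Cal.mat A k * Cal.mat A l).trace
        = Cal.sR A from rfl]
      ring
    have e1 : ∀ p k l, 2 * -(A p k l) *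
        ((T1 p k * Cal.mat A l).trace + (Cal.mat A k * T1 p l).trace)
        = -2 * (A p k l * (T1 p k * Cal.mat A l).trace)
          + -2 * (A p k l * (Cal.mat A k * T1 p l).trace) := fun p k l => by ring
    simp only [e1, Finset.sum_add_distrib, ← Finset.mul_sum, e2, e3]
    ring
  have c3 : ∑ p, ∑ k, (T2 p k * Cal.mat A k).trace = Cal.sS A + Cal.sM A D - 2 * Cal.sR A := by
    have e : ∀ p k, (T2 p k * Cal.mat A k).trace =
        ((Cal.mat A p * Cal.mat A p - Cal.mat4 D p p + Cal.mat A p * Cal.mat A p)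
          * (Cal.mat A k * Cal.mat A k)).trace
        + (pdM p (nmat u p k) x * amat u k x).trace
        - 2 * (Cal.mat4 D p k * (Cal.mat A p * Cal.mat A k)).trace := fun p k => by
      have r1 : (Cal.mat4 D p k * (Cal.mat A p * Cal.mat A k)).trace
          = (Cal.mat A p * Cal.mat4 D p k * Cal.mat A k).trace := by
        rw [← Matrix.trace_transpose, Matrix.transpose_mul, Matrix.transpose_mul,
          Cal.mat_transpose hA, Cal.mat_transpose hA]
        rw [show (Cal.mat4 D p k).transpose = Cal.mat4 D p k from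
          Matrix.ext fun a b => (hD.s34 p k a b).symm]
        rw [Matrix.mul_assoc, Matrix.trace_mul_comm]
      simp only [T2, r1, eA, add_mul, sub_mul, Matrix.trace_add, Matrix.trace_sub, Matrix.mul_assoc]
      ring
    simp only [e, Finset.sum_add_distrib, Finset.sum_sub_distrib, ← Finset.mul_sum, hW,
      Cal.sum_trace_mat4_mul hA hD]
    simp only [← Matrix.trace_sum, ← Finset.mul_sum, ← Finset.sum_mul, Cal.sum_mat_sq hA, hS2]
    have : (Matrix.of (Cal.sQ A) * Matrix.of (Cal.sQ A)).trace = Cal.sS A := by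
      simp only [Matrix.trace, Matrix.diag_apply, Matrix.mul_apply, Matrix.of_apply, Cal.sS]
      refine Finset.sum_congr rfl fun a _ => Finset.sum_congr rfl fun b _ => ?_
      rw [pow_two, Cal.sQ, Cal.sQ, Matrix.trace_mul_comm (Cal.mat A b)]
    rw [this]
    ring
  have c3' : ∑ p, ∑ k, (Cal.mat A k * T2 p k).trace = Cal.sS A + Cal.sM A D - 2 * Cal.sR A := by
    simp only [Matrix.trace_mul_comm (Cal.mat A _), c3]
  have c4 : ∑ p, ∑ k, (T1 p k * T1 p k).trace
      = Cal.sD D - 2 * Cal.sM A D + Cal.sR A := by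
    have hDD : ∑ p, ∑ k, (Cal.mat4 D p k * Cal.mat4 D p k).trace = Cal.sD D := by
      simp only [Cal.sD, Matrix.trace, Matrix.diag_apply, Matrix.mul_apply, Cal.mat4,
        Matrix.of_apply]
      refine Finset.sum_congr rfl fun p _ => Finset.sum_congr rfl fun k _ =>
        Finset.sum_congr rfl fun a _ => Finset.sum_congr rfl fun b _ => ?_
      rw [pow_two, hD.s34 p k b a]
    have e : ∀ p k, (T1 p k * T1 p k).trace = (Cal.mat4 D p k * Cal.mat4 D p k).trace
        - 2 * (Cal.mat4 D p k * (Cal.mat A p * Cal.mat A k)).trace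
        + (Cal.mat A p * Cal.mat A k * (Cal.mat A p * Cal.mat A k)).trace := fun p k => by
      simp only [T1, add_mul, mul_add, Matrix.trace_add, neg_mul, mul_neg,
        Matrix.trace_neg]
      rw [Matrix.trace_mul_comm (Cal.mat A p * Cal.mat A k) (Cal.mat4 D p k)]
      ring
    simp only [e, Finset.sum_add_distrib, Finset.sum_sub_distrib, ← Finset.mul_sum, hDD,
      Cal.sum_trace_mat4_mul hA hD, Cal.sum_trace_mat4chain hA]
  simp only [← Finset.mul_sum] at c2 ⊢
  rw [c1, c3, c3', c4]
  have hkey := Cal.calabi_algebra hA hD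
  linarith [c2]

end Point

end Vale.Agent.P252
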