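import Mathlib

/-!
# The divergence theorem on a compact sublevel set with a polynomial cut-off
-/

namespace Vale.Agent.P252

open Set Filter Topology MeasureTheory

variable {n : ℕ}

/-- The partial derivative in the `i`-th coordinate. -/
noncomputable def pd (i : Fin n) (f : (Fin n → ℝ) → ℝ) (x : Fin n → ℝ) : ℝ :=
  fderiv ℝ f x (Pi.single i 1)

theorem continuous_pd {f : (Fin n → ℝ) → ℝ} (hf : ContDiff ℝ 1 f) (i : Fin n) :
    Continuous (pd i f) :=
  (hf.continuous_fderiv one_ne_zero).clm_apply continuous_const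

theorem hasCompactSupport_pd {f : (Fin n → ℝ) → ℝ} (hs : HasCompactSupport f) (i : Fin n) :
    HasCompactSupport (pd i f) :=
  hs.fderiv_apply ℝ (Pi.single i 1)

/-- The integral of a partial derivative of a compactly supported function vanishes. -/
theorem integral_pd_eq_zero {f : (Fin n → ℝ) → ℝ} (hf : ContDiff ℝ 1 f)
    (hs : HasCompactSupport f) (i : Fin n) : ∫ x, pd i f x = 0 := by
  have h := integral_mul_fderiv_eq_neg_fderiv_mul_of_integrable (μ := volume) (f := f)
    (g := fun _ : Fin n → ℝ => (1 : ℝ)) (v := (Pi.single i 1 : Fin n → ℝ))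
    (by
      simp only [mul_one]
      exact (continuous_pd hf i).integrable_of_hasCompactSupport (hasCompactSupport_pd hs i))
    (by simp) (by simpa using hf.continuous.integrable_of_hasCompactSupport hs)
    (fun x _ => (hf.differentiable one_ne_zero) x) (fun x _ => differentiableAt_const _)
  simpa [pd] using h.symm

/-- The power of the positive part. -/
noncomputable def posPow (N : ℕ) (t : ℝ) : ℝ := max t 0 ^ N

theorem hasDerivAt_posPow {N : ℕ} (hN : 2 ≤ N) (t : ℝ) :
    HasDerivAt (posPow N) (N * max t 0 ^ (N - 1)) t := by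
  rcases lt_trichotomy t 0 with h | h | h
  · have e : posPow N =ᶠ[𝓝 t] fun _ => 0 := by
      filter_upwards [eventually_lt_nhds h] with s hs
      simp [posPow, max_eq_right hs.le, zero_pow (by omega : N ≠ 0)]
    simpa [max_eq_right h.le, zero_pow (by omega : N - 1 ≠ 0)] using
      (hasDerivAt_const t (0 : ℝ)).congr_of_eventuallyEq e
  · subst h
    simp only [max_self, zero_pow (by omega : N - 1 ≠ 0), mul_zero]
    rw [hasDerivAt_iff_isLittleO]
    simp only [posPow, max_self, zero_pow (by omega : N ≠ 0), sub_zero, smul_zero]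
    refine Asymptotics.isLittleO_iff.2 fun c hc => ?_
    have hmin : (0:ℝ) < min c 1 := lt_min hc one_pos
    filter_upwards [Metric.ball_mem_nhds (0:ℝ) hmin] with s hs
    rw [Metric.mem_ball, Real.dist_eq, sub_zero] at hs
    rw [Real.norm_eq_abs, Real.norm_eq_abs, abs_pow, abs_of_nonneg (le_max_right s 0)]
    have hle : max s 0 ≤ |s| := max_le (le_abs_self s) (abs_nonneg s)
    have h1 : |s| ≤ 1 := hs.le.trans (min_le_right _ _)
    calc max s 0 ^ N ≤ |s| ^ N := pow_le_pow_left₀ (le_max_right s 0) hle N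
      _ ≤ |s| ^ 2 := pow_le_pow_of_le_one (abs_nonneg s) h1 hN
      _ ≤ c * |s| := by
          rw [pow_two]
          exact mul_le_mul_of_nonneg_right (hs.le.trans (min_le_left _ _)) (abs_nonneg s)
  · have e : posPow N =ᶠ[𝓝 t] fun s => s ^ N := by
      filter_upwards [eventually_gt_nhds h] with s hs
      simp [posPow, max_eq_left hs.le]
    rw [max_eq_left h.le]
    exact (hasDerivAt_pow N t).congr_of_eventuallyEq e

theorem contDiff_posPow {N : ℕ} (hN : 2 ≤ N) : ContDiff ℝ 1 (posPow N) := by
  rw [contDiff_one_iff_deriv]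
  refine ⟨fun t => (hasDerivAt_posPow hN t).differentiableAt, ?_⟩
  have : deriv (posPow N) = fun t : ℝ => (N : ℝ) * max t 0 ^ (N - 1) :=
    funext fun t => (hasDerivAt_posPow hN t).deriv
  rw [this]
  fun_prop

variable {Ω : Set (Fin n → ℝ)} {v : (Fin n → ℝ) → ℝ} {R : ℝ}

/-- Integration by parts against the cut-off `(R - v)₊ ^ N`. -/
theorem integral_cutoff_div (hO : IsOpen Ω) (hv : ContDiffOn ℝ 1 v Ω)
    (hK : IsCompact {x ∈ Ω | v x ≤ R}) {X : (Fin n → ℝ) → Fin n → ℝ}
    (hX : ∀ i, ContDiffOn ℝ 1 (fun x => X x i) Ω) {N : ℕ} (hN : 2 ≤ N) :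
    ∫ x in {x ∈ Ω | v x ≤ R}, ((R - v x) ^ N * ∑ i, pd i (fun y => X y i) x
      - N * (R - v x) ^ (N - 1) * ∑ i, pd i v x * X x i) = 0 := by
  classical
  set K := {x ∈ Ω | v x ≤ R} with hKdef
  set F : Fin n → (Fin n → ℝ) → ℝ :=
    fun i => Ω.indicator fun x => posPow N (R - v x) * X x i with hF
  have hzero : ∀ i x, x ∉ K → F i x = 0 := by
    intro i x hx
    by_cases hxO : x ∈ Ω
    · have : R - v x ≤ 0 := by
        by_contra h
        exact hx ⟨hxO, by linarith⟩
      simp [hF, hxO, posPow, max_eq_right this, zero_pow (by omega : N ≠ 0)]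
    · simp [hF, hxO]
  have heq : ∀ i x, x ∈ Ω → F i =ᶠ[𝓝 x] fun y => posPow N (R - v y) * X y i := fun i x hx => by
    filter_upwards [hO.mem_nhds hx] with y hy
    simp [hF, hy]
  have hC : ∀ i, ContDiff ℝ 1 (F i) := fun i => contDiff_iff_contDiffAt.2 fun x => by
    by_cases hx : x ∈ Ω
    · exact (((contDiff_posPow hN).contDiffAt.comp x
        (contDiffAt_const.sub (hv.contDiffAt (hO.mem_nhds hx)))).mul
          ((hX i).contDiffAt (hO.mem_nhds hx))).congr_of_eventuallyEq (heq i x hx)
    · refine (contDiffAt_const (c := (0:ℝ))).congr_of_eventuallyEq ?_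
      filter_upwards [hK.isClosed.isOpen_compl.mem_nhds (fun h : x ∈ K => hx h.1)] with y hy
      exact hzero i y hy
  have hs : ∀ i, HasCompactSupport (F i) := fun i =>
    HasCompactSupport.intro hK (hzero i)
  have hp : ∀ i, ∀ x ∈ Ω, pd i (F i) x = posPow N (R - v x) * pd i (fun y => X y i) x
      - N * max (R - v x) 0 ^ (N - 1) * (pd i v x * X x i) := by
    intro i x hx
    have h1 := (hasDerivAt_posPow hN (R - v x)).comp_hasFDerivAt x
      (((hv.contDiffAt (hO.mem_nhds hx)).differentiableAt one_ne_zero).hasFDerivAt.const_sub R)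
    have h2 := h1.mul
      (((hX i).contDiffAt (hO.mem_nhds hx)).differentiableAt one_ne_zero).hasFDerivAt
    simp only [pd, (heq i x hx).fderiv_eq]
    rw [show (fun y => posPow N (R - v y) * X y i) =
      ((posPow N ∘ fun y => R - v y) * fun y => X y i) from rfl, h2.fderiv]
    simp only [FunLike.coe_add, FunLike.coe_smul, Pi.add_apply, Pi.smul_apply, neg_apply,
      smul_eq_mul, Function.comp_apply]
    ring
  have hp0 : ∀ i, ∀ x ∉ K, pd i (F i) x = 0 := by
    intro i x hx
    have : F i =ᶠ[𝓝 x] fun _ => (0:ℝ) := by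
      filter_upwards [hK.isClosed.isOpen_compl.mem_nhds hx] with y hy
      exact hzero i y hy
    simp [pd, this.fderiv_eq]
  have htot : ∫ x, ∑ i, pd i (F i) x = 0 := by
    rw [integral_finsetSum]
    · exact Finset.sum_eq_zero fun i _ => integral_pd_eq_zero (hC i) (hs i) i
    · exact fun i _ =>
        (continuous_pd (hC i) i).integrable_of_hasCompactSupport (hasCompactSupport_pd (hs i) i)
  rw [← setIntegral_eq_integral_of_forall_compl_eq_zero
    (fun x hx => Finset.sum_eq_zero fun i _ => hp0 i x hx)] at htot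
  refine Eq.trans (setIntegral_congr_fun hK.measurableSet fun x hx => ?_) htot
  simp only [Finset.mul_sum, ← Finset.sum_sub_distrib]
  refine Finset.sum_congr rfl fun i _ => ?_
  rw [hp i x hx.1]
  have : 0 ≤ R - v x := by linarith [hx.2]
  simp [posPow, max_eq_left this]

end Vale.Agent.P252
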