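import Vale.Agent.P252.B.Frame

/-!
# Divergences of the test fields when the cubic form is trace free
-/

namespace Vale.Agent.P252

open Set Filter Topology Finset
open scoped Matrix MatrixOrder

variable {n : ℕ} {Ω : Set (Fin n → ℝ)} {x : Fin n → ℝ} {u v : (Fin n → ℝ) → ℝ}

/-- The differential as a vector. -/
noncomputable def dvec (f : (Fin n → ℝ) → ℝ) (x : Fin n → ℝ) (i : Fin n) : ℝ := pd i f x

/-- The gradient for the Hessian metric. -/
noncomputable def grad (u v : (Fin n → ℝ) → ℝ) (i : Fin n) (x : Fin n → ℝ) : ℝ :=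
  ∑ j, gmat u x i j * pd j v x

/-- The inner product of two covectors. -/
noncomputable def gip (u : (Fin n → ℝ) → ℝ) (a b : Fin n → ℝ) (x : Fin n → ℝ) : ℝ :=
  ∑ i, ∑ j, gmat u x i j * a i * b j

/-- `|dv|²`. -/
noncomputable def gradSq (u v : (Fin n → ℝ) → ℝ) (x : Fin n → ℝ) : ℝ :=
  ∑ i, pd i v x * grad u v i x

/-- The cubic form applied twice to the gradient. -/
noncomputable def cub (u v : (Fin n → ℝ) → ℝ) (i : Fin n) (x : Fin n → ℝ) : ℝ :=
  ∑ a, ∑ b, A3 u i a b x * grad u v a x * grad u v b x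

/-- The cubic form applied once to the gradient. -/
noncomputable def cmat (u v : (Fin n → ℝ) → ℝ) (x : Fin n → ℝ) : Matrix (Fin n) (Fin n) ℝ :=
  ∑ k, grad u v k x • amat u k x

/-- `tr (G C G C)`. -/
noncomputable def cubS (u v : (Fin n → ℝ) → ℝ) (x : Fin n → ℝ) : ℝ :=
  (gmat u x * cmat u v x * (gmat u x * cmat u v x)).trace

variable (hO : IsOpen Ω) (hu : Smooth Ω u) (hH : ∀ y ∈ Ω, (hessian u y).PosDef)
  (hv : Smooth Ω v) (hvu : ∀ y ∈ Ω, ∀ i j, pd i (pd j v) y = pd i (pd j u) y)
include hO hu hH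

omit hO hu in
theorem gmat_symm (hx : x ∈ Ω) (i j : Fin n) : gmat u x i j = gmat u x j i :=
  ginv_symm (hH x hx) i j

include hv in
theorem smooth_grad (i : Fin n) : Smooth Ω (grad u v i) :=
  ContDiffOn.sum fun j _ => (smoothM_gmat hO hu hH i j).mul (hv.pd hO j)

include hv in
theorem smooth_gradSq : Smooth Ω (gradSq u v) :=
  ContDiffOn.sum fun i _ => (hv.pd hO i).mul (smooth_grad hO hu hH hv i)

include hv in
theorem smooth_cub (i : Fin n) : Smooth Ω (cub u v i) :=
  ContDiffOn.sum fun a _ => ContDiffOn.sum fun b _ =>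
    ((smoothM_amat hO hu i a b).mul (smooth_grad hO hu hH hv a)).mul
      (smooth_grad hO hu hH hv b)

/-- A trace-free cubic form makes `G` divergence free. -/
theorem sum_pd_gmat (hT : TraceFree Ω u) (hx : x ∈ Ω) (k : Fin n) :
    ∑ i, pd i (fun y => gmat u y i k) x = 0 := by
  have h : ∀ b, pd b (ldet u) x = 0 := fun b => by
    rw [pd_ldet hO hu hH hx, ← hT x hx b]
    simp only [Matrix.trace, Matrix.diag_apply, mmat, Matrix.mul_apply, amat, Matrix.of_apply, A3]
    refine Finset.sum_congr rfl fun a _ => Finset.sum_congr rfl fun c _ => ?_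
    rw [pd3_comm hO hu hx b a c]
    rfl
  have := sum_pd_ginv hO hu hH hx k
  simp only [h, zero_mul, Finset.sum_const_zero, neg_zero] at this
  exact this

include hv hvu

theorem pd_grad (hx : x ∈ Ω) (i a : Fin n) :
    pd i (grad u v a) x = (if a = i then 1 else 0) - (mmat u i x *ᵥ fun b => grad u v b x) a := by
  have hG := smoothM_gmat hO hu hH
  have e : pd i (grad u v a) x = ∑ j, (gmat u x a j * pd i (pd j v) x
      + pd j v x * pd i (fun y => gmat u y a j) x) := by
    rw [show grad u v a = fun y => ∑ j, gmat u y a j * pd j v y from rfl,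
      pd_sum _ (fun j _ => ((hG a j).differentiableAt hO hx).fun_mul
        ((hv.pd hO j).differentiableAt hO hx))]
    exact Finset.sum_congr rfl fun j _ =>
      pd_mul ((hG a j).differentiableAt hO hx) ((hv.pd hO j).differentiableAt hO hx) i
  rw [e, Finset.sum_add_distrib]
  have e1 : ∑ j, gmat u x a j * pd i (pd j v) x = if a = i then 1 else 0 := by
    rw [← sum_ginv_hessian (hH x hx) a i]
    refine Finset.sum_congr rfl fun j _ => ?_
    rw [hvu x hx, hessian_eq_pd hO hu hx, pd_comm hO hu hx i j]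
    rfl
  have e2 : ∑ j, pd j v x * pd i (fun y => gmat u y a j) x
      = -(mmat u i x *ᵥ fun b => grad u v b x) a := by
    simp only [show ∀ j, pd i (fun y => gmat u y a j) x = pdM i (gmat u) x a j from fun j => rfl,
      pdM_gmat hO hu hH hx, Matrix.neg_apply, mul_neg, Finset.sum_neg_distrib]
    congr 1
    simp only [Matrix.mulVec, dotProduct, grad, mmat, Matrix.mul_apply (N := gmat u x),
      Finset.mul_sum]
    rw [Finset.sum_comm]
    exact Finset.sum_congr rfl fun b _ => Finset.sum_congr rfl fun j _ => by ring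
  rw [e1, e2]
  ring

omit hO hu hv hvu in
theorem sum_grad_mmat (hx : x ∈ Ω) (i : Fin n) :
    ∑ a, pd a v x * (mmat u i x *ᵥ fun b => grad u v b x) a = cub u v i x := by
  simp only [Matrix.mulVec, dotProduct, mmat, Matrix.mul_apply, cub, amat, Matrix.of_apply,
    Finset.sum_mul, Finset.mul_sum]
  rw [Finset.sum_congr rfl fun a _ => Finset.sum_comm, Finset.sum_comm]
  refine Finset.sum_congr rfl fun c _ => ?_
  rw [Finset.sum_comm]
  refine Finset.sum_congr rfl fun b _ => ?_
  rw [show grad u v c x = ∑ j, gmat u x c j * pd j v x from rfl, Finset.mul_sum, Finset.sum_mul]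
  refine Finset.sum_congr rfl fun a _ => ?_
  rw [gmat_symm (Ω := Ω) hH hx a c]
  ring

theorem pd_gradSq (hx : x ∈ Ω) (i : Fin n) :
    pd i (gradSq u v) x = 2 * pd i v x - cub u v i x := by
  rw [show gradSq u v = fun y => ∑ a, pd a v y * grad u v a y from rfl,
    pd_sum _ (fun a _ => ((hv.pd hO a).differentiableAt hO hx).fun_mul
      ((smooth_grad hO hu hH hv a).differentiableAt hO hx))]
  simp only [pd_mul ((hv.pd hO _).differentiableAt hO hx)
    ((smooth_grad hO hu hH hv _).differentiableAt hO hx), pd_grad hO hu hH hv hvu hx,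
    mul_sub, Finset.sum_add_distrib, Finset.sum_sub_distrib, mul_ite, mul_one, mul_zero,
    Finset.sum_ite_eq', Finset.mem_univ, if_true, sum_grad_mmat hH hx]
  have : ∑ a, grad u v a x * pd i (pd a v) x = pd i v x := by
    calc ∑ a, grad u v a x * pd i (pd a v) x
        = ∑ a, ∑ j, hessian u x i a * gmat u x a j * pd j v x := by
          refine Finset.sum_congr rfl fun a _ => ?_
          rw [hvu x hx, hessian_eq_pd hO hu hx, grad, Finset.sum_mul]
          exact Finset.sum_congr rfl fun j _ => by ring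
      _ = pd i v x := by
          rw [Finset.sum_comm]
          simp only [← Finset.sum_mul, show ∀ j, ∑ a, hessian u x i a * gmat u x a j
            = if i = j then (1:ℝ) else 0 from fun j => sum_hessian_ginv (hH x hx) i j]
          simp
  rw [this]
  ring

variable (hT : TraceFree Ω u)
include hT

/-- `div (G dv) = n`. -/
theorem div_grad (hx : x ∈ Ω) : ∑ i, pd i (grad u v i) x = n := by
  simp only [pd_grad hO hu hH hv hvu hx, if_true, Finset.sum_sub_distrib, Finset.sum_const,
    Finset.card_univ, Fintype.card_fin, nsmul_eq_mul, mul_one, sub_eq_self]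
  simp only [Matrix.mulVec, dotProduct]
  rw [Finset.sum_comm]
  refine Finset.sum_eq_zero fun b _ => ?_
  rw [← Finset.sum_mul]
  have : ∑ i, mmat u i x i b = (mmat u b x).trace := by
    simp only [Matrix.trace, Matrix.diag_apply, mmat, Matrix.mul_apply, amat, Matrix.of_apply]
    refine Finset.sum_congr rfl fun i _ => Finset.sum_congr rfl fun c _ => ?_
    rw [(A3_sym hO hu hx i c b).2, (A3_sym hO hu hx i b c).1, (A3_sym hO hu hx b i c).2]
  rw [this, hT x hx b, zero_mul]

omit hv hvu in
/-- The trace of the fourth derivatives. -/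
theorem sum_gmat_pd_A3 (hx : x ∈ Ω) (a b : Fin n) :
    ∑ i, ∑ j, gmat u x i j * pd i (A3 u j a b) x
      = (mmat u a x * mmat u b x).trace := by
  have h : pd a (fun y => (mmat u b y).trace) x = 0 := by
    rw [pd_congr hO hx (g := fun _ => (0:ℝ)) (fun y hy => hT y hy b)]
    simp [pd]
  rw [pd_trace hO hx (smoothM_mmat hO hu hH b), pdM_mmat hO hu hH hx, Matrix.trace_add,
    neg_mul, Matrix.trace_neg, neg_add_eq_zero] at h
  rw [show mmat u a x * mmat u b x = gmat u x * amat u a x * gmat u x * amat u b x by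
    simp only [mmat, Matrix.mul_assoc], h]
  simp only [Matrix.trace, Matrix.diag_apply, Matrix.mul_apply, nmat, Matrix.of_apply]
  refine Finset.sum_congr rfl fun i _ => Finset.sum_congr rfl fun j _ => ?_
  have hD := sym4_pd_A3 hO hu (x := x) hx
  have : pd a (A3 u b j i) x = pd i (A3 u j a b) x := by
    rw [hD.s23 a b j i, hD.s12 a j b i, hD.s34 j a b i, hD.s23 j a i b, hD.s12 j i a b]
  rw [this]

omit hT hH hv hvu in
theorem cmat_apply (hx : x ∈ Ω) (i j : Fin n) :
    cmat u v x i j = ∑ k, A3 u i j k x * grad u v k x := by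
  simp only [cmat, Matrix.sum_apply, Matrix.smul_apply, smul_eq_mul, amat, Matrix.of_apply]
  refine Finset.sum_congr rfl fun k _ => ?_
  rw [(A3_sym hO hu hx k i j).1, (A3_sym hO hu hx i k j).2]
  ring

omit hT hO hu hH hv hvu in
theorem sum_grad_trace :
    ∑ a, ∑ b, grad u v a x * grad u v b x * (mmat u a x * mmat u b x).trace = cubS u v x := by
  simp only [cubS, cmat, Matrix.mul_smul, Matrix.sum_mul, Matrix.smul_mul,
    Matrix.trace_sum, Matrix.trace_smul, smul_eq_mul, Finset.mul_sum, mmat]
  rw [Finset.sum_comm]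
  exact Finset.sum_congr rfl fun a _ => Finset.sum_congr rfl fun b _ => by ring

/-- The divergence of `G p`. -/
theorem div_cub (hx : x ∈ Ω) :
    ∑ i, pd i (fun y => ∑ j, gmat u y i j * cub u v j y) x = -cubS u v x := by
  have hG := smoothM_gmat hO hu hH
  have hg := fun a => (smooth_grad hO hu hH hv a).differentiableAt hO hx
  have hA : ∀ j a b, DifferentiableAt ℝ (A3 u j a b) x :=
    fun j a b => (smoothM_amat hO hu j a b).differentiableAt hO hx
  have e0 : ∀ i, pd i (fun y => ∑ j, gmat u y i j * cub u v j y) x =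
      ∑ j, (gmat u x i j * pd i (cub u v j) x + cub u v j x * pd i (fun y => gmat u y i j) x) :=
    fun i => by
    rw [pd_sum _ (fun j _ => ((hG i j).differentiableAt hO hx).fun_mul
      ((smooth_cub hO hu hH hv j).differentiableAt hO hx))]
    exact Finset.sum_congr rfl fun j _ =>
      pd_mul ((hG i j).differentiableAt hO hx) ((smooth_cub hO hu hH hv j).differentiableAt hO hx) i
  have e1 : ∀ i j, pd i (cub u v j) x = ∑ a, ∑ b,
      (grad u v a x * grad u v b x * pd i (A3 u j a b) x
        + A3 u j a b x * grad u v b x * pd i (grad u v a) x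
        + A3 u j a b x * grad u v a x * pd i (grad u v b) x) := fun i j => by
    rw [show cub u v j = fun y => ∑ a, ∑ b, A3 u j a b y * grad u v a y * grad u v b y from rfl,
      pd_sum _ (fun a _ => DifferentiableAt.fun_sum fun b _ =>
        ((hA j a b).fun_mul (hg a)).fun_mul (hg b))]
    refine Finset.sum_congr rfl fun a _ => ?_
    rw [pd_sum _ (fun b _ => ((hA j a b).fun_mul (hg a)).fun_mul (hg b))]
    refine Finset.sum_congr rfl fun b _ => ?_
    rw [pd_mul (f := fun y => A3 u j a b y * grad u v a y) ((hA j a b).fun_mul (hg a)) (hg b),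
      pd_mul (f := A3 u j a b) (hA j a b) (hg a)]
    ring
  have e2 : ∀ i j, pd i (cub u v j) x = (∑ a, ∑ b,
      grad u v a x * grad u v b x * pd i (A3 u j a b) x)
      + 2 * ∑ a, cmat u v x j a * pd i (grad u v a) x := fun i j => by
    rw [e1]
    simp only [Finset.sum_add_distrib, cmat_apply hO hu hx, Finset.sum_mul]
    have : ∑ a, ∑ b, A3 u j a b x * grad u v a x * pd i (grad u v b) x
        = ∑ a, ∑ b, A3 u j a b x * grad u v b x * pd i (grad u v a) x := by
      rw [Finset.sum_comm]
      exact Finset.sum_congr rfl fun a _ => Finset.sum_congr rfl fun b _ => by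
        rw [(A3_sym hO hu hx j b a).2]
    rw [this]
    ring
  simp only [e0, Finset.sum_add_distrib]
  have e3 : ∑ i, ∑ j, cub u v j x * pd i (fun y => gmat u y i j) x = 0 := by
    rw [Finset.sum_comm]
    simp only [← Finset.mul_sum, sum_pd_gmat hO hu hH hT hx, mul_zero, Finset.sum_const_zero]
  rw [e3, add_zero]
  simp only [e2, mul_add, Finset.sum_add_distrib]
  have e4 : ∑ i, ∑ j, gmat u x i j * ∑ a, ∑ b,
      grad u v a x * grad u v b x * pd i (A3 u j a b) x = cubS u v x := by
    rw [← sum_grad_trace]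
    simp only [← sum_gmat_pd_A3 hO hu hH hT hx, Finset.mul_sum, ← Fintype.sum_prod_type']
    refine Fintype.sum_equiv ⟨fun ⟨i, j, a, b⟩ => ⟨a, b, i, j⟩, fun ⟨a, b, i, j⟩ => ⟨i, j, a, b⟩,
      fun _ => rfl, fun _ => rfl⟩ _ _ ?_
    rintro ⟨i, j, a, b⟩
    simp only [Equiv.coe_fn_mk]
    ring
  have e5 : ∑ i, ∑ j, gmat u x i j * (2 * ∑ a, cmat u v x j a * pd i (grad u v a) x)
      = -2 * cubS u v x := by
    have hP : ∀ i a, pd i (grad u v a) x
        = (1 : Matrix (Fin n) (Fin n) ℝ) a i - (gmat u x * cmat u v x) a i := fun i a => by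
      rw [pd_grad hO hu hH hv hvu hx, Matrix.one_apply]
      congr 1
      simp only [mmat, Matrix.mulVec, dotProduct, Matrix.mul_apply, Finset.sum_mul,
        cmat_apply hO hu hx, Finset.mul_sum, amat, Matrix.of_apply]
      rw [Finset.sum_comm]
      refine Finset.sum_congr rfl fun c _ => Finset.sum_congr rfl fun b _ => ?_
      rw [(A3_sym hO hu hx i c b).1]
      ring
    have e : ∑ i, ∑ j, gmat u x i j * (2 * ∑ a, cmat u v x j a * pd i (grad u v a) x)
        = 2 * (gmat u x * cmat u v x * (1 - gmat u x * cmat u v x)).trace := by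
      simp only [Matrix.trace, Matrix.diag_apply, Matrix.mul_apply (M := gmat u x * cmat u v x),
        Matrix.sub_apply, hP, Finset.mul_sum]
      refine Finset.sum_congr rfl fun i _ => ?_
      rw [Finset.sum_comm]
      refine Finset.sum_congr rfl fun a _ => ?_
      simp only [Matrix.mul_apply, Finset.sum_mul, Finset.mul_sum]
      exact Finset.sum_congr rfl fun j _ => by ring
    rw [e, mul_sub, Matrix.trace_sub, mul_one]
    have : (gmat u x * cmat u v x).trace = 0 := by
      simp only [cmat, Matrix.mul_sum, Matrix.mul_smul, Matrix.trace_sum, Matrix.trace_smul,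
        show ∀ k, (gmat u x * amat u k x).trace = 0 from fun k => hT x hx k, smul_zero,
        Finset.sum_const_zero]
    rw [this, cubS]
    ring
  rw [e4, e5]
  ring

omit hT hO hu hv hvu in
/-- Pointwise Cauchy–Schwarz facts. -/
theorem gip_facts (hx : x ∈ Ω) (a b : Fin n → ℝ) :
    gip u a b x ^ 2 ≤ gip u a a x * gip u b b x ∧ 0 ≤ gip u a a x := by
  obtain ⟨Q, -, hG, -⟩ := exists_frame_at (Ω := Ω) hH hx
  have e : ∀ a b : Fin n → ℝ, gip u a b x = ∑ k, (Qᵀ *ᵥ a) k * (Qᵀ *ᵥ b) k := fun a b => by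
    simp only [gip, hG, Matrix.mulVec, dotProduct, Matrix.mul_apply, Matrix.transpose_apply,
      Finset.sum_mul, Finset.mul_sum]
    rw [Finset.sum_congr rfl fun i _ => Finset.sum_comm, Finset.sum_comm]
    exact Finset.sum_congr rfl fun k _ => by
      rw [Finset.sum_comm]
      exact Finset.sum_congr rfl fun j _ => Finset.sum_congr rfl fun i _ => by ring
  rw [e, e, e]
  refine ⟨?_, Finset.sum_nonneg fun k _ => mul_self_nonneg _⟩
  have := Finset.sum_mul_sq_le_sq_mul_sq Finset.univ (Qᵀ *ᵥ a) (Qᵀ *ᵥ b)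
  simp only [pow_two] at this ⊢
  exact this

omit hT hO hu hH hv hvu in
theorem gradSq_eq : gradSq u v x = gip u (dvec v x) (dvec v x) x := by
  simp only [gradSq, grad, gip, dvec, Finset.mul_sum]
  exact Finset.sum_congr rfl fun i _ => Finset.sum_congr rfl fun j _ => by ring

omit hv hvu in
/-- The trace-free inequality `n |p|² ≤ (n - 1) |dv|² tr (G C G C)`. -/
theorem cub_sq_le (hn : 2 ≤ n) (hx : x ∈ Ω) :
    (n : ℝ) * gip u (fun i => cub u v i x) (fun i => cub u v i x) x
      ≤ ((n : ℝ) - 1) * (gradSq u v x * cubS u v x) := by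
  obtain ⟨Q, -, hG, -⟩ := exists_frame_at (Ω := Ω) hH hx
  set C := cmat u v x with hC
  set K := Qᵀ * C * Q with hK
  have hCs : Cᵀ = C := by
    ext i j
    rw [Matrix.transpose_apply, hC, cmat_apply hO hu hx, cmat_apply hO hu hx]
    exact Finset.sum_congr rfl fun k _ => by rw [(A3_sym hO hu hx j i k).1]
  have hKs : ∀ i j, K i j = K j i := fun i j => by
    have : Kᵀ = K := by
      rw [hK, Matrix.transpose_mul, Matrix.transpose_mul, hCs, Matrix.transpose_transpose,
        Matrix.mul_assoc]
    exact (congrFun (congrFun this i) j).symm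
  have h0 : K.trace = 0 := by
    rw [hK, Matrix.trace_mul_comm, ← Matrix.mul_assoc, ← hG, hC]
    simp only [cmat, Matrix.mul_sum, Matrix.mul_smul, Matrix.trace_sum, Matrix.trace_smul,
      show ∀ k, (gmat u x * amat u k x).trace = 0 from fun k => hT x hx k, smul_zero,
      Finset.sum_const_zero]
  have key := Cal.traceFree_mulVec_le hn K hKs h0 (Qᵀ *ᵥ dvec v x)
  have hp : (fun i => cub u v i x) = C *ᵥ fun b => grad u v b x := by
    ext i
    simp only [Matrix.mulVec, dotProduct, hC, cmat_apply hO hu hx, cub, Finset.sum_mul]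
    exact Finset.sum_congr rfl fun a _ => Finset.sum_congr rfl fun b _ => by ring
  have hw : (fun b => grad u v b x) = (Q * Qᵀ) *ᵥ dvec v x := by
    ext b
    simp only [← hG, Matrix.mulVec, dotProduct, grad, dvec]
  have hKy : K *ᵥ (Qᵀ *ᵥ dvec v x) = Qᵀ *ᵥ fun i => cub u v i x := by
    rw [hp, hw, hK, Matrix.mulVec_mulVec, Matrix.mulVec_mulVec, Matrix.mulVec_mulVec]
    simp only [Matrix.mul_assoc]
  have hg : ∀ a : Fin n → ℝ, gip u a a x = ∑ k, (Qᵀ *ᵥ a) k ^ 2 := fun a => by
    simp only [gip, hG, Matrix.mulVec, dotProduct, Matrix.mul_apply, Matrix.transpose_apply,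
      Finset.sum_mul, Finset.mul_sum, pow_two]
    rw [Finset.sum_congr rfl fun i _ => Finset.sum_comm, Finset.sum_comm]
    exact Finset.sum_congr rfl fun k _ => by
      rw [Finset.sum_comm]
      exact Finset.sum_congr rfl fun j _ => Finset.sum_congr rfl fun i _ => by ring
  have hS : cubS u v x = ∑ i, ∑ j, K i j ^ 2 := by
    have : ∑ i, ∑ j, K i j ^ 2 = (K * K).trace := by
      simp only [Matrix.trace, Matrix.diag_apply, Matrix.mul_apply]
      exact Finset.sum_congr rfl fun i _ => Finset.sum_congr rfl fun j _ => by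
        rw [pow_two, hKs j i]
    rw [this, cubS, ← hC, hG, hK]
    rw [show Qᵀ * C * Q * (Qᵀ * C * Q) = Qᵀ * (C * (Q * Qᵀ) * C * Q) by
      simp only [Matrix.mul_assoc], Matrix.trace_mul_comm Qᵀ]
    rw [show C * (Q * Qᵀ) * C * Q * Qᵀ = C * (Q * Qᵀ * C * (Q * Qᵀ)) by
      simp only [Matrix.mul_assoc], Matrix.trace_mul_comm C]
    simp only [Matrix.mul_assoc]
  rw [gradSq_eq, hg, hg, hS, ← hKy]
  exact key

end Vale.Agent.P252
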