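import Vale.Agent.P252.B.Calabi

/-!
# Calabi's inequality and the algebraic facts at an arbitrary point

An affine change of coordinates makes the Hessian the identity at the point.
-/

namespace Vale.Agent.P252

open Set Filter Topology Finset
open scoped Matrix MatrixOrder

variable {n : ℕ} {Ω : Set (Fin n → ℝ)} {x : Fin n → ℝ} {u : (Fin n → ℝ) → ℝ}

/-- The affine map `y ↦ x + Q y`. -/
def aff (Q : Matrix (Fin n) (Fin n) ℝ) (x y : Fin n → ℝ) : Fin n → ℝ := x + Q *ᵥ y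

theorem aff_zero (Q : Matrix (Fin n) (Fin n) ℝ) (x : Fin n → ℝ) : aff Q x 0 = x := by simp [aff]

theorem hasFDerivAt_aff (Q : Matrix (Fin n) (Fin n) ℝ) (x y : Fin n → ℝ) :
    HasFDerivAt (aff Q x) (LinearMap.toContinuousLinearMap Q.mulVecLin) y :=
  ((LinearMap.toContinuousLinearMap Q.mulVecLin).hasFDerivAt).const_add x

theorem contDiff_aff (Q : Matrix (Fin n) (Fin n) ℝ) (x : Fin n → ℝ) {m : WithTop ℕ∞} :
    ContDiff ℝ m (aff Q x) :=
  contDiff_const.add (LinearMap.toContinuousLinearMap Q.mulVecLin).contDiff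

variable {Q : Matrix (Fin n) (Fin n) ℝ} {x₀ y : Fin n → ℝ}

theorem Smooth.comp_aff {f : (Fin n → ℝ) → ℝ} (hf : Smooth Ω f) :
    Smooth (aff Q x₀ ⁻¹' Ω) (f ∘ aff Q x₀) :=
  hf.comp (contDiff_aff Q x₀).contDiffOn (mapsTo_preimage _ _)

theorem pd_comp_aff {f : (Fin n → ℝ) → ℝ} (hf : DifferentiableAt ℝ f (aff Q x₀ y)) (i : Fin n) :
    pd i (f ∘ aff Q x₀) y = ∑ a, Q a i * pd a f (aff Q x₀ y) := by
  rw [pd, (hf.hasFDerivAt.comp y (hasFDerivAt_aff Q x₀ y)).fderiv]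
  have e : Q *ᵥ (Pi.single i 1 : Fin n → ℝ) = ∑ a, Q a i • (Pi.single a 1 : Fin n → ℝ) := by
    ext b
    simp [Pi.single_apply]
  simp only [ContinuousLinearMap.coe_comp, Function.comp_apply,
    LinearMap.coe_toContinuousLinearMap', Matrix.mulVecLin_apply, e, map_sum, map_smul,
    smul_eq_mul, pd]

theorem pd2_comp_aff (hO : IsOpen Ω) {f : (Fin n → ℝ) → ℝ} (hf : Smooth Ω f)
    (hy : aff Q x₀ y ∈ Ω) (i j : Fin n) :
    pd i (pd j (f ∘ aff Q x₀)) y =
      ∑ a, ∑ b, Q a i * Q b j * pd a (pd b f) (aff Q x₀ y) := by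
  have hO' : IsOpen (aff Q x₀ ⁻¹' Ω) := hO.preimage (contDiff_aff Q x₀ (m := 1)).continuous
  rw [pd_congr hO' hy (g := fun z => ∑ b, Q b j * (pd b f ∘ aff Q x₀) z)
    (fun z hz => pd_comp_aff (hf.differentiableAt hO hz) j),
    pd_sum _ (fun b _ => ((hf.pd hO b).comp_aff.differentiableAt hO' hy).const_mul (Q b j))]
  rw [Finset.sum_comm]
  refine Finset.sum_congr rfl fun b _ => ?_
  rw [pd_const_mul ((hf.pd hO b).comp_aff.differentiableAt hO' hy),
    pd_comp_aff ((hf.pd hO b).differentiableAt hO hy), Finset.mul_sum]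
  exact Finset.sum_congr rfl fun a _ => by ring

section

variable (hO : IsOpen Ω) (hu : Smooth Ω u) (hH : ∀ z ∈ Ω, (hessian u z).PosDef)
  (hy : aff Q x₀ y ∈ Ω)
include hO hu hy

theorem hessian_comp_aff :
    hessian (u ∘ aff Q x₀) y = Qᵀ * hessian u (aff Q x₀ y) * Q := by
  ext i j
  rw [hessian_eq_pd (hO.preimage (contDiff_aff Q x₀ (m := 1)).continuous) hu.comp_aff hy,
    pd2_comp_aff hO hu hy, Matrix.mul_apply]
  simp only [Matrix.mul_apply, Matrix.transpose_apply, Finset.sum_mul]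
  rw [Finset.sum_comm]
  refine Finset.sum_congr rfl fun b _ => Finset.sum_congr rfl fun a _ => ?_
  rw [hessian_eq_pd hO hu hy]
  ring

theorem gmat_comp_aff :
    gmat (u ∘ aff Q x₀) y = Q⁻¹ * gmat u (aff Q x₀ y) * (Qᵀ)⁻¹ := by
  rw [gmat, hessian_comp_aff hO hu hy, Matrix.mul_inv_rev, Matrix.mul_inv_rev, gmat,
    Matrix.mul_assoc]

theorem amat_comp_aff (k : Fin n) :
    amat (u ∘ aff Q x₀) k y = ∑ c, Q c k • (Qᵀ * amat u c (aff Q x₀ y) * Q) := by
  have hO' : IsOpen (aff Q x₀ ⁻¹' Ω) := hO.preimage (contDiff_aff Q x₀ (m := 1)).continuous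
  have hd : ∀ a b, DifferentiableAt ℝ (fun z => (pd a (pd b u) ∘ aff Q x₀) z) y :=
    fun a b => ((hu.pd hO b).pd hO a).comp_aff.differentiableAt hO' hy
  ext i j
  rw [amat, Matrix.of_apply, A3,
    pd_congr hO' hy (g := fun z => ∑ a, ∑ b, Q a i * Q b j * (pd a (pd b u) ∘ aff Q x₀) z)
      (fun z hz => pd2_comp_aff hO hu hz i j) k,
    pd_sum _ (fun a _ => DifferentiableAt.fun_sum fun b _ => (hd a b).const_mul _)]
  simp only [Matrix.sum_apply, Matrix.smul_apply, smul_eq_mul, Matrix.mul_apply,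
    Matrix.transpose_apply, amat, Matrix.of_apply, A3, Finset.sum_mul, Finset.mul_sum]
  conv_rhs => rw [Finset.sum_congr rfl fun c _ => Finset.sum_comm, Finset.sum_comm]
  refine Finset.sum_congr rfl fun a _ => ?_
  rw [pd_sum _ (fun b _ => (hd a b).const_mul _), Finset.sum_comm]
  refine Finset.sum_congr rfl fun b _ => ?_
  rw [pd_const_mul (hd a b),
    show (fun z => (pd a (pd b u) ∘ aff Q x₀) z) = pd a (pd b u) ∘ aff Q x₀ from rfl,
    pd_comp_aff (((hu.pd hO b).pd hO a).differentiableAt hO hy), Finset.mul_sum]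
  exact Finset.sum_congr rfl fun c _ => by ring

end

/-- Change of frame in a `G`-contraction. -/
theorem sum_frame (hQ : IsUnit Q.det) (G : Matrix (Fin n) (Fin n) ℝ) (f : Fin n → Fin n → ℝ) :
    ∑ k, ∑ l, (Q⁻¹ * G * (Qᵀ)⁻¹) k l * ∑ c, ∑ d, Q c k * Q d l * f c d
      = ∑ c, ∑ d, G c d * f c d := by
  have e : Q * (Q⁻¹ * G * (Qᵀ)⁻¹) * Qᵀ = G := by
    rw [← Matrix.mul_assoc, ← Matrix.mul_assoc, Matrix.mul_nonsing_inv _ hQ, one_mul,
      Matrix.mul_assoc, Matrix.nonsing_inv_mul _ (by rwa [Matrix.det_transpose]), mul_one]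
  conv_rhs => rw [← e]
  simp only [Matrix.mul_apply (M := Q * (Q⁻¹ * G * (Qᵀ)⁻¹)), Matrix.mul_apply (M := Q),
    Matrix.transpose_apply, Finset.sum_mul, Finset.mul_sum, ← Fintype.sum_prod_type']
  refine Fintype.sum_equiv
    ⟨fun ⟨k, l, c, d⟩ => ⟨c, d, l, k⟩, fun ⟨c, d, l, k⟩ => ⟨k, l, c, d⟩,
      fun _ => rfl, fun _ => rfl⟩ _ _ ?_
  rintro ⟨k, l, c, d⟩
  simp only [Equiv.coe_fn_mk]
  ring

section

variable (hO : IsOpen Ω) (hu : Smooth Ω u) (hy : aff Q x₀ y ∈ Ω) (hQ : IsUnit Q.det)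
include hO hu hy hQ

theorem mmat_comp_aff (k : Fin n) :
    mmat (u ∘ aff Q x₀) k y = ∑ c, Q c k • (Q⁻¹ * mmat u c (aff Q x₀ y) * Q) := by
  rw [mmat, gmat_comp_aff hO hu hy, amat_comp_aff hO hu hy, Matrix.mul_sum]
  refine Finset.sum_congr rfl fun c _ => ?_
  rw [Matrix.mul_smul, mmat]
  congr 1
  rw [show Q⁻¹ * gmat u (aff Q x₀ y) * (Qᵀ)⁻¹ * (Qᵀ * amat u c (aff Q x₀ y) * Q) =
    Q⁻¹ * gmat u (aff Q x₀ y) * ((Qᵀ)⁻¹ * Qᵀ) * amat u c (aff Q x₀ y) * Q by
      simp only [Matrix.mul_assoc],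
    Matrix.nonsing_inv_mul _ (by rwa [Matrix.det_transpose]), mul_one]
  simp only [Matrix.mul_assoc]

omit hO hu hy in
theorem trace_conj (M : Matrix (Fin n) (Fin n) ℝ) : (Q⁻¹ * M * Q).trace = M.trace := by
  rw [Matrix.trace_mul_comm, ← Matrix.mul_assoc, Matrix.mul_nonsing_inv _ hQ, one_mul]

theorem phi_comp_aff : phi (u ∘ aff Q x₀) y = phi u (aff Q x₀ y) := by
  have e : ∀ k l, (mmat (u ∘ aff Q x₀) k y * mmat (u ∘ aff Q x₀) l y).trace =
      ∑ c, ∑ d, Q c k * Q d l * (mmat u c (aff Q x₀ y) * mmat u d (aff Q x₀ y)).trace := by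
    intro k l
    simp only [mmat_comp_aff hO hu hy hQ, Matrix.sum_mul, Matrix.trace_sum,
      Matrix.smul_mul, Matrix.mul_smul, Matrix.trace_smul, smul_eq_mul, Finset.mul_sum]
    rw [Finset.sum_comm]
    refine Finset.sum_congr rfl fun c _ => Finset.sum_congr rfl fun d _ => ?_
    rw [show Q⁻¹ * mmat u c (aff Q x₀ y) * Q * (Q⁻¹ * mmat u d (aff Q x₀ y) * Q) =
      Q⁻¹ * (mmat u c (aff Q x₀ y) * (Q * Q⁻¹) * mmat u d (aff Q x₀ y)) * Q by
        simp only [Matrix.mul_assoc],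
      Matrix.mul_nonsing_inv _ hQ, mul_one, trace_conj hQ]
    ring
  simp only [phi, e, gmat_comp_aff hO hu hy]
  exact sum_frame hQ _ _

theorem lap_comp_aff {f : (Fin n → ℝ) → ℝ} (hf : Smooth Ω f) :
    lap (u ∘ aff Q x₀) (f ∘ aff Q x₀) y = lap u f (aff Q x₀ y) := by
  simp only [lap, gmat_comp_aff hO hu hy, pd2_comp_aff hO hf hy]
  exact sum_frame hQ _ _

end

section

variable (hO : IsOpen Ω) (hu : Smooth Ω u) (hH : ∀ z ∈ Ω, (hessian u z).PosDef)
include hO hu hH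

omit hO hu in
theorem exists_frame_at (hx : x ∈ Ω) :
    ∃ Q : Matrix (Fin n) (Fin n) ℝ, IsUnit Q.det ∧ gmat u x = Q * Qᵀ ∧
      Qᵀ * hessian u x * Q = 1 := by
  obtain ⟨B, hB⟩ := CStarAlgebra.nonneg_iff_eq_star_mul_self.mp
    (hH x hx).inv.posSemidef.nonneg
  have hB' : gmat u x = Bᵀ * Bᵀᵀ := by
    simpa [gmat, Matrix.star_eq_conjTranspose] using hB
  have hd : IsUnit (Bᵀ).det := by
    have h := (hH x hx).inv.det_pos
    rw [show (hessian u x)⁻¹ = gmat u x from rfl, hB', Matrix.det_mul, Matrix.det_transpose] at h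
    rw [isUnit_iff_ne_zero]
    intro h0
    rw [Matrix.det_transpose] at h0
    simp [h0] at h
  refine ⟨Bᵀ, hd, hB', ?_⟩
  have h1 : hessian u x * (Bᵀ * Bᵀᵀ) = 1 := by
    rw [← hB', gmat, Matrix.mul_nonsing_inv _ (isUnit_iff_ne_zero.2 (hH x hx).det_pos.ne')]
  rw [Matrix.mul_assoc, mul_eq_one_comm, Matrix.mul_assoc]
  exact h1

theorem smooth_phi : Smooth Ω (phi u) :=
  ContDiffOn.sum fun k _ => ContDiffOn.sum fun l _ =>
    (smoothM_gmat hO hu hH k l).mul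
      ((smoothM_mmat hO hu hH k).mul (smoothM_mmat hO hu hH l)).trace

theorem calabi (hT : TraceFree Ω u) (hx : x ∈ Ω) :
    phi u x ^ 2 / (2 * n) ≤ lap u (phi u) x := by
  obtain ⟨Q, hQ, -, h1⟩ := exists_frame_at (Ω := Ω) hH hx
  have hO' : IsOpen (aff Q x ⁻¹' Ω) := hO.preimage (contDiff_aff Q x (m := 1)).continuous
  have h0 : aff Q x 0 ∈ Ω := by rwa [aff_zero]
  have hH' : ∀ z ∈ aff Q x ⁻¹' Ω, (hessian (u ∘ aff Q x) z).PosDef := fun z hz => by
    rw [hessian_comp_aff hO hu hz, ← Matrix.conjTranspose_eq_transpose_of_trivial]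
    exact (hH _ hz).conjTranspose_mul_mul_same
      (Matrix.mulVec_injective_iff_isUnit.2 ((Matrix.isUnit_iff_isUnit_det Q).2 hQ))
  have hT' : TraceFree (aff Q x ⁻¹' Ω) (u ∘ aff Q x) := fun z hz k => by
    simp only [mmat_comp_aff hO hu hz hQ, Matrix.trace_sum, Matrix.trace_smul,
      trace_conj hQ, hT _ hz, smul_zero, Finset.sum_const_zero]
  have h := calabi_point hO' hu.comp_aff hH' (x := (0 : Fin n → ℝ))
    (by rw [hessian_comp_aff hO hu h0, aff_zero, h1]) hT' h0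
  rw [phi_comp_aff hO hu h0 hQ, aff_zero] at h
  have e : lap (u ∘ aff Q x) (phi (u ∘ aff Q x)) 0 = lap u (phi u) x := by
    rw [← (by rw [aff_zero] : lap u (phi u) (aff Q x 0) = lap u (phi u) x),
      ← lap_comp_aff hO hu h0 hQ (smooth_phi hO hu hH)]
    simp only [lap]
    refine Finset.sum_congr rfl fun i _ => Finset.sum_congr rfl fun j _ => ?_
    congr 1
    refine pd_congr hO' h0 (fun z hz => pd_congr hO' hz (fun w hw => ?_) j) i
    exact phi_comp_aff hO hu hw hQ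
  rwa [e] at h

theorem phi_nonneg (hx : x ∈ Ω) : 0 ≤ phi u x ∧ (phi u x = 0 → ∀ k, amat u k x = 0) := by
  obtain ⟨Q, hQ, -, h1⟩ := exists_frame_at (Ω := Ω) hH hx
  have hO' : IsOpen (aff Q x ⁻¹' Ω) := hO.preimage (contDiff_aff Q x (m := 1)).continuous
  have h0 : aff Q x 0 ∈ Ω := by rwa [aff_zero]
  have hv1 : hessian (u ∘ aff Q x) 0 = 1 := by rw [hessian_comp_aff hO hu h0, aff_zero, h1]
  have hs := sym3_A3 hO' (hu.comp_aff : Smooth _ (u ∘ aff Q x)) (x := (0 : Fin n → ℝ)) h0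
  have e : phi u x = ∑ k, ∑ a, ∑ b, amat (u ∘ aff Q x) k 0 a b ^ 2 := by
    rw [← (by rw [aff_zero] : phi u (aff Q x 0) = phi u x), ← phi_comp_aff hO hu h0 hQ]
    simp only [phi, mmat, gmat_one hv1, one_mul]
    simp only [Matrix.one_apply, ite_mul, one_mul, zero_mul, Finset.sum_ite_eq, Finset.mem_univ,
      if_true, Matrix.trace, Matrix.diag_apply, Matrix.mul_apply]
    refine Finset.sum_congr rfl fun k _ => Finset.sum_congr rfl fun a _ =>
      Finset.sum_congr rfl fun b _ => ?_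
    simp only [amat, Matrix.of_apply, pow_two]
    rw [hs.s23 k b a]
  refine ⟨e ▸ by positivity, fun h k => ?_⟩
  rw [e] at h
  have hz : ∀ k, amat (u ∘ aff Q x) k 0 = 0 := fun k => by
    ext a b
    have h2 := (Finset.sum_eq_zero_iff_of_nonneg fun k _ => by positivity).1 h k (mem_univ k)
    have h3 := (Finset.sum_eq_zero_iff_of_nonneg fun a _ => by positivity).1 h2 a (mem_univ a)
    have h4 := (Finset.sum_eq_zero_iff_of_nonneg fun b _ => by positivity).1 h3 b (mem_univ b)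
    simpa using h4
  have h5 : ∑ l, (Q⁻¹) l k • amat (u ∘ aff Q x) l 0 = Qᵀ * amat u k x * Q := by
    simp only [amat_comp_aff hO hu h0, aff_zero, Finset.smul_sum, smul_smul]
    rw [Finset.sum_comm]
    simp only [← Finset.sum_smul]
    have : ∀ c, ∑ l, (Q⁻¹) l k * Q c l = (Q * Q⁻¹) c k := fun c => by
      simp [Matrix.mul_apply, mul_comm]
    simp [this, Matrix.mul_nonsing_inv _ hQ, Matrix.one_apply]
  simp only [hz, smul_zero, Finset.sum_const_zero] at h5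
  calc amat u k x = (Qᵀ)⁻¹ * (Qᵀ * amat u k x * Q) * Q⁻¹ := by
        rw [Matrix.mul_assoc Qᵀ, ← Matrix.mul_assoc (Qᵀ)⁻¹,
          Matrix.nonsing_inv_mul _ (by rwa [Matrix.det_transpose]), one_mul, Matrix.mul_assoc,
          Matrix.mul_nonsing_inv _ hQ, mul_one]
    _ = 0 := by rw [← h5]; simp

end

end Vale.Agent.P252
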