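import Vale.Agent.P252.Equation
import Vale.Agent.P252.B.Div

/-!
# Jets of a smooth function with positive definite Hessian

Partial derivatives, their symmetry, the derivatives of the determinant and of the inverse of the
Hessian, and the affine maximal equation written for `f = log w`.
-/

namespace Vale.Agent.P252

open Set Filter Topology
open scoped Matrix

variable {n : ℕ} {Ω : Set (Fin n → ℝ)} {f g : (Fin n → ℝ) → ℝ} {x : Fin n → ℝ}

/-- Smoothness on `Ω`. -/
abbrev Smooth (Ω : Set (Fin n → ℝ)) (f : (Fin n → ℝ) → ℝ) : Prop :=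
  ContDiffOn ℝ ((⊤ : ℕ∞) : WithTop ℕ∞) f Ω

theorem Smooth.differentiableAt (hf : Smooth Ω f) (hO : IsOpen Ω) (hx : x ∈ Ω) :
    DifferentiableAt ℝ f x :=
  (hf.contDiffAt (hO.mem_nhds hx)).differentiableAt (by simp)

theorem Smooth.pd (hf : Smooth Ω f) (hO : IsOpen Ω) (i : Fin n) :
    Smooth Ω (Vale.Agent.P252.pd i f) :=
  (hf.fderiv_of_isOpen hO le_rfl).clm_apply contDiffOn_const

theorem Smooth.const (c : ℝ) : Smooth Ω fun _ => c := contDiffOn_const

theorem pd_congr (hO : IsOpen Ω) (hx : x ∈ Ω) (h : ∀ y ∈ Ω, f y = g y) (i : Fin n) :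
    pd i f x = pd i g x := by
  have : f =ᶠ[𝓝 x] g := by
    filter_upwards [hO.mem_nhds hx] with y hy using h y hy
  simp [pd, this.fderiv_eq]

theorem pd_add (hf : DifferentiableAt ℝ f x) (hg : DifferentiableAt ℝ g x) (i : Fin n) :
    pd i (fun y => f y + g y) x = pd i f x + pd i g x := by
  simp [pd, fderiv_fun_add hf hg]

theorem pd_mul (hf : DifferentiableAt ℝ f x) (hg : DifferentiableAt ℝ g x) (i : Fin n) :
    pd i (fun y => f y * g y) x = f x * pd i g x + g x * pd i f x := by
  simp [pd, fderiv_fun_mul hf hg]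

theorem pd_const_mul (hf : DifferentiableAt ℝ f x) (c : ℝ) (i : Fin n) :
    pd i (fun y => c * f y) x = c * pd i f x := by
  simp [pd, fderiv_const_mul hf]

theorem pd_sum {ι : Type*} (s : Finset ι) {F : ι → (Fin n → ℝ) → ℝ}
    (hF : ∀ k ∈ s, DifferentiableAt ℝ (F k) x) (i : Fin n) :
    pd i (fun y => ∑ k ∈ s, F k y) x = ∑ k ∈ s, pd i (F k) x := by
  simp [pd, fderiv_fun_sum hF]

theorem pd_comp {φ : ℝ → ℝ} {d : ℝ} (hφ : HasDerivAt φ d (f x)) (hf : DifferentiableAt ℝ f x)
    (i : Fin n) : pd i (fun y => φ (f y)) x = d * pd i f x := by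
  rw [pd, show (fun y => φ (f y)) = φ ∘ f from rfl, (hφ.comp_hasFDerivAt x hf.hasFDerivAt).fderiv]
  simp [pd]

theorem pd_comm (hO : IsOpen Ω) (hf : Smooth Ω f) (hx : x ∈ Ω) (i j : Fin n) :
    pd i (pd j f) x = pd j (pd i f) x := by
  have hd : DifferentiableAt ℝ (fderiv ℝ f) x :=
    ((hf.contDiffAt (hO.mem_nhds hx)).fderiv_right (m := 1)
      (WithTop.coe_le_coe.2 le_top)).differentiableAt one_ne_zero
  have h : IsSymmSndFDerivAt ℝ f x :=
    ((hf.contDiffAt (hO.mem_nhds hx)).of_le (m := 2)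
      (WithTop.coe_le_coe.2 le_top)).isSymmSndFDerivAt (by simp)
  simp only [pd]
  rw [show (Vale.Agent.P252.pd j f) = fun y => fderiv ℝ f y (Pi.single j 1) from rfl,
    show (Vale.Agent.P252.pd i f) = fun y => fderiv ℝ f y (Pi.single i 1) from rfl,
    fderiv_clm_apply hd (differentiableAt_const _), fderiv_clm_apply hd (differentiableAt_const _)]
  simp [h.eq]

theorem hessian_eq_pd (hO : IsOpen Ω) (hf : Smooth Ω f) (hx : x ∈ Ω) (i j : Fin n) :
    hessian f x i j = pd i (pd j f) x := by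
  have hd : DifferentiableAt ℝ (fderiv ℝ f) x :=
    ((hf.contDiffAt (hO.mem_nhds hx)).fderiv_right (m := 1)
      (WithTop.coe_le_coe.2 le_top)).differentiableAt one_ne_zero
  rw [pd, show pd j f = fun y => fderiv ℝ f y (Pi.single j 1) from rfl,
    fderiv_clm_apply hd (differentiableAt_const _)]
  simp [hessian]

/-! ### Determinants -/

theorem contDiff_det {m : ℕ} :
    ContDiff ℝ ((⊤ : ℕ∞) : WithTop ℕ∞) fun M : Fin m → Fin m → ℝ => (Matrix.of M).det := by
  simp only [Matrix.det_apply, Matrix.of_apply]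
  refine ContDiff.sum fun σ _ => ContDiff.const_smul _ (contDiff_prod fun i _ => ?_)
  exact (contDiff_apply ℝ ℝ i).comp (contDiff_apply ℝ (Fin m → ℝ) (σ i))

theorem hasDerivAt_det_add_smul {m : ℕ} (M B : Matrix (Fin m) (Fin m) ℝ) (hM : M.det ≠ 0) :
    HasDerivAt (fun t : ℝ => (M + t • B).det) (M.det * (M⁻¹ * B).trace) 0 := by
  have e : ∀ t : ℝ, (M + t • B).det = M.det * (1 + t • (M⁻¹ * B)).det := fun t => by
    rw [← Matrix.det_mul, Matrix.mul_add, Matrix.mul_one, Matrix.mul_smul, ← Matrix.mul_assoc,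
      Matrix.mul_nonsing_inv _ (isUnit_iff_ne_zero.2 hM), Matrix.one_mul]
  rw [funext e, funext fun t : ℝ => congrArg (M.det * ·) (Matrix.det_one_add_smul t (M⁻¹ * B))]
  set p := (Matrix.det (1 + (Polynomial.X : Polynomial ℝ) • (M⁻¹ * B).map Polynomial.C)).divX.divX
  set c := (M⁻¹ * B).trace
  have := ((((hasDerivAt_id' (0:ℝ)).const_mul c).const_add 1).fun_add
    ((p.hasDerivAt 0).fun_mul (hasDerivAt_pow 2 (0:ℝ)))).const_mul M.det
  simpa using this

/-- Jacobi's formula along a coordinate. -/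
theorem pd_det {M : (Fin n → ℝ) → Matrix (Fin n) (Fin n) ℝ}
    (hM : ∀ a b, DifferentiableAt ℝ (fun y => M y a b) x) (h0 : (M x).det ≠ 0) (i : Fin n) :
    pd i (fun y => (M y).det) x
      = (M x).det * ∑ a, ∑ b, (M x)⁻¹ a b * pd i (fun y => M y b a) x := by
  set D : (Fin n → Fin n → ℝ) → ℝ := fun m => (Matrix.of m).det with hD
  set F : (Fin n → ℝ) → (Fin n → Fin n → ℝ) := fun y a b => M y a b with hF
  have hFd : DifferentiableAt ℝ F x :=
    differentiableAt_pi.2 fun a => differentiableAt_pi.2 fun b => hM a b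
  have hDd : DifferentiableAt ℝ D (F x) := (contDiff_det.differentiable (by simp)) _
  set B : Fin n → Fin n → ℝ := fderiv ℝ F x (Pi.single i 1) with hB
  have hBe : ∀ a b, B a b = pd i (fun y => M y a b) x := fun a b => by
    have h1 : HasFDerivAt (fun y => F y a b)
        (((ContinuousLinearMap.proj (R := ℝ) (φ := fun _ : Fin n => ℝ) b).comp
          (ContinuousLinearMap.proj (R := ℝ) (φ := fun _ : Fin n => Fin n → ℝ) a)).comp
          (fderiv ℝ F x)) x :=
      (((ContinuousLinearMap.proj (R := ℝ) (φ := fun _ : Fin n => ℝ) b).comp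
          (ContinuousLinearMap.proj (R := ℝ) (φ := fun _ : Fin n => Fin n → ℝ) a)).hasFDerivAt
        ).comp x hFd.hasFDerivAt
    simp only [pd, hF] at h1 ⊢
    rw [h1.fderiv]
    rfl
  have h2 : fderiv ℝ D (F x) B = (M x).det * ((M x)⁻¹ * Matrix.of B).trace := by
    have hl : HasDerivAt (fun t : ℝ => F x + t • B) B 0 := by
      simpa using ((hasDerivAt_id (0:ℝ)).smul_const B).const_add (F x)
    have h3 := (show HasFDerivAt D (fderiv ℝ D (F x)) (F x + (0:ℝ) • B) by
      simpa using hDd.hasFDerivAt).comp_hasDerivAt (0:ℝ) hl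
    exact h3.unique (hasDerivAt_det_add_smul (M x) (Matrix.of B) h0)
  have h4 : pd i (fun y => (M y).det) x = fderiv ℝ D (F x) B := by
    simp only [pd]
    rw [show (fun y => (M y).det) = D ∘ F from rfl, (hDd.hasFDerivAt.comp x hFd.hasFDerivAt).fderiv]
    rfl
  rw [h4, h2]
  simp [Matrix.trace, Matrix.mul_apply, hBe]

/-! ### The Hessian of `u` -/

/-- `log det D²u`. -/
noncomputable def ldet (u : (Fin n → ℝ) → ℝ) (x : Fin n → ℝ) : ℝ := Real.log (hessian u x).det

/-- The inverse Hessian. -/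
noncomputable def ginv (u : (Fin n → ℝ) → ℝ) (i j : Fin n) (x : Fin n → ℝ) : ℝ :=
  (hessian u x)⁻¹ i j

/-- `f = log w`. -/
noncomputable def logw (u : (Fin n → ℝ) → ℝ) (x : Fin n → ℝ) : ℝ :=
  -(((n : ℝ) + 1) / ((n : ℝ) + 2)) * ldet u x

variable {u : (Fin n → ℝ) → ℝ}

theorem smooth_hessian (hO : IsOpen Ω) (hu : Smooth Ω u) (i j : Fin n) :
    Smooth Ω fun y => hessian u y i j :=
  ((hu.pd hO j).pd hO i).congr fun _ hy => hessian_eq_pd hO hu hy i j

theorem smooth_det (hO : IsOpen Ω) (hu : Smooth Ω u) : Smooth Ω fun y => (hessian u y).det :=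
  (contDiff_det (m := n)).comp_contDiffOn (f := fun y a b => hessian u y a b)
    (contDiffOn_pi.2 fun a => contDiffOn_pi.2 fun b => smooth_hessian hO hu a b)

theorem smooth_ginv (hO : IsOpen Ω) (hu : Smooth Ω u) (hH : ∀ y ∈ Ω, (hessian u y).PosDef)
    (i j : Fin n) : Smooth Ω (ginv u i j) := by
  have hadj : Smooth Ω fun y => (hessian u y).adjugate i j := by
    simp only [Matrix.adjugate_apply]
    refine (contDiff_det (m := n)).comp_contDiffOn
      (f := fun y a b => (hessian u y).updateRow j (Pi.single i 1) a b)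
      (contDiffOn_pi.2 fun a => contDiffOn_pi.2 fun b => ?_)
    simp only [Matrix.updateRow_apply]
    by_cases h : a = j
    · simp only [h, if_true]; exact contDiffOn_const
    · simp only [h, if_false]; exact smooth_hessian hO hu a b
  refine (((smooth_det hO hu).inv fun y hy => (hH y hy).det_pos.ne').mul hadj).congr
    fun y hy => ?_
  simp [ginv, Matrix.inv_def, Ring.inverse_eq_inv']

theorem smooth_ldet (hO : IsOpen Ω) (hu : Smooth Ω u) (hH : ∀ y ∈ Ω, (hessian u y).PosDef) :
    Smooth Ω (ldet u) :=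
  (smooth_det hO hu).log fun y hy => (hH y hy).det_pos.ne'

theorem smooth_logw (hO : IsOpen Ω) (hu : Smooth Ω u) (hH : ∀ y ∈ Ω, (hessian u y).PosDef) :
    Smooth Ω (logw u) :=
  contDiffOn_const.mul (smooth_ldet hO hu hH)

theorem ginv_symm (hH : (hessian u x).PosDef) (i j : Fin n) : ginv u i j x = ginv u j i x := by
  have := (hH.inv.isHermitian.apply i j)
  simpa [ginv] using this.symm

theorem sum_hessian_ginv (hH : (hessian u x).PosDef) (i k : Fin n) :
    ∑ j, hessian u x i j * ginv u j k x = if i = k then 1 else 0 := by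
  have := congrFun (congrFun
    (Matrix.mul_nonsing_inv (hessian u x) (isUnit_iff_ne_zero.2 hH.det_pos.ne')) i) k
  simpa [Matrix.mul_apply, Matrix.one_apply, ginv] using this

theorem sum_ginv_hessian (hH : (hessian u x).PosDef) (i k : Fin n) :
    ∑ j, ginv u i j x * hessian u x j k = if i = k then 1 else 0 := by
  have := congrFun (congrFun
    (Matrix.nonsing_inv_mul (hessian u x) (isUnit_iff_ne_zero.2 hH.det_pos.ne')) i) k
  simpa [Matrix.mul_apply, Matrix.one_apply, ginv] using this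

theorem pd_ldet (hO : IsOpen Ω) (hu : Smooth Ω u) (hH : ∀ y ∈ Ω, (hessian u y).PosDef)
    (hx : x ∈ Ω) (i : Fin n) :
    pd i (ldet u) x = ∑ a, ∑ b, ginv u a b x * pd i (pd a (pd b u)) x := by
  have h0 := (hH x hx).det_pos.ne'
  have hd := (smooth_det hO hu).differentiableAt hO hx
  rw [show ldet u = fun y => Real.log ((hessian u y).det) from rfl,
    pd_comp (Real.hasDerivAt_log h0) hd,
    pd_det (fun a b => (smooth_hessian hO hu a b).differentiableAt hO hx) h0,
    ← mul_assoc, inv_mul_cancel₀ h0, one_mul]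
  refine Finset.sum_congr rfl fun a _ => Finset.sum_congr rfl fun b _ => ?_
  rw [show (hessian u x)⁻¹ a b = ginv u a b x from rfl]
  congr 1
  refine pd_congr hO hx (fun y hy => ?_) i
  rw [hessian_eq_pd hO hu hy, pd_comm hO hu hy]

theorem pd_ginv (hO : IsOpen Ω) (hu : Smooth Ω u) (hH : ∀ y ∈ Ω, (hessian u y).PosDef)
    (hx : x ∈ Ω) (i j k : Fin n) :
    pd i (ginv u j k) x =
      -∑ a, ∑ b, ginv u j a x * pd i (pd a (pd b u)) x * ginv u b k x := by
  have hg := fun a b => (smooth_ginv hO hu hH a b).differentiableAt hO hx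
  have hh := fun a b => (smooth_hessian hO hu a b).differentiableAt hO hx
  have key : ∀ a, ∑ b, (hessian u x a b * pd i (ginv u b k) x
      + ginv u b k x * pd i (pd a (pd b u)) x) = 0 := by
    intro a
    have h1 : pd i (fun y => ∑ b, hessian u y a b * ginv u b k y) x = 0 := by
      rw [pd_congr hO hx (g := fun _ => if a = k then (1:ℝ) else 0)
        (fun y hy => sum_hessian_ginv (hH y hy) a k)]
      simp [pd]
    rw [pd_sum _ (fun b _ => (hh a b).fun_mul (hg b k))] at h1
    rw [← h1]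
    refine Finset.sum_congr rfl fun b _ => ?_
    rw [pd_mul (hh a b) (hg b k)]
    congr 2
    exact pd_congr hO hx (fun y hy => (hessian_eq_pd hO hu hy a b).symm) i
  have h2 : ∑ a, ginv u j a x * ∑ b, (hessian u x a b * pd i (ginv u b k) x
      + ginv u b k x * pd i (pd a (pd b u)) x) = 0 := by
    simp [key]
  simp only [Finset.sum_add_distrib, mul_add, Finset.mul_sum] at h2
  have h3 : ∑ a, ∑ b, ginv u j a x * (hessian u x a b * pd i (ginv u b k) x)
      = pd i (ginv u j k) x := by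
    rw [Finset.sum_comm]
    simp only [← mul_assoc, ← Finset.sum_mul, sum_ginv_hessian (hH x hx)]
    simp
  rw [h3] at h2
  rw [eq_neg_iff_add_eq_zero]
  refine Eq.trans ?_ h2
  congr 1
  refine Finset.sum_congr rfl fun a _ => Finset.sum_congr rfl fun b _ => ?_
  ring

/-- The affine maximal equation for `f = log w`. -/
theorem affineMaximal_logw (hO : IsOpen Ω) (hu : Smooth Ω u)
    (hH : ∀ y ∈ Ω, (hessian u y).PosDef) (hx : x ∈ Ω) (hAM : IsAffineMaximalAt u x) :
    ∑ i, ∑ j, ginv u i j x *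
      (pd i (pd j (logw u)) x + pd i (logw u) x * pd j (logw u) x) = 0 := by
  have hs := smooth_logw hO hu hH
  have hw : ∀ y ∈ Ω, affineW u y = Real.exp (logw u y) := fun y hy => by
    rw [affineW, Real.rpow_def_of_pos (hH y hy).det_pos, logw, ldet, mul_comm]
  have hwS : Smooth Ω (affineW u) := hs.exp.congr hw
  have h1 : ∀ j, ∀ y ∈ Ω, pd j (affineW u) y = Real.exp (logw u y) * pd j (logw u) y :=
    fun j y hy => by
      rw [pd_congr hO hy hw, pd_comp (Real.hasDerivAt_exp _) (hs.differentiableAt hO hy)]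
  have h2 : ∀ i j, hessian (affineW u) x i j = Real.exp (logw u x) *
      (pd i (pd j (logw u)) x + pd i (logw u) x * pd j (logw u) x) := fun i j => by
    rw [hessian_eq_pd hO hwS hx, pd_congr hO hx (h1 j),
      pd_mul ((Smooth.differentiableAt hs.exp hO hx))
        ((hs.pd hO j).differentiableAt hO hx),
      pd_comp (Real.hasDerivAt_exp _) (hs.differentiableAt hO hx)]
    ring
  have h3 : (hessian u x).det * Real.exp (logw u x) * (∑ i, ∑ j, ginv u i j x *
      (pd i (pd j (logw u)) x + pd i (logw u) x * pd j (logw u) x)) = 0 := by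
    rw [← hAM]
    simp only [h2, Finset.mul_sum, ginv]
    refine Finset.sum_congr rfl fun i _ => Finset.sum_congr rfl fun j _ => ?_
    ring
  exact (mul_eq_zero.1 h3).resolve_left
    (mul_ne_zero (hH x hx).det_pos.ne' (Real.exp_pos _).ne')

/-- Third derivatives are symmetric. -/
theorem pd3_comm (hO : IsOpen Ω) (hu : Smooth Ω u) (hx : x ∈ Ω) (i j k : Fin n) :
    pd i (pd j (pd k u)) x = pd i (pd k (pd j u)) x :=
  pd_congr hO hx (fun _ hy => pd_comm hO hu hy j k) i

/-- The divergence of the inverse Hessian. -/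
theorem sum_pd_ginv (hO : IsOpen Ω) (hu : Smooth Ω u) (hH : ∀ y ∈ Ω, (hessian u y).PosDef)
    (hx : x ∈ Ω) (k : Fin n) :
    ∑ i, pd i (ginv u i k) x = -∑ b, pd b (ldet u) x * ginv u b k x := by
  simp only [pd_ginv hO hu hH hx, Finset.sum_neg_distrib]
  congr 1
  have e : ∀ b, pd b (ldet u) x = ∑ i, ∑ a, ginv u i a x * pd i (pd a (pd b u)) x := fun b => by
    rw [pd_ldet hO hu hH hx]
    refine Finset.sum_congr rfl fun i _ => Finset.sum_congr rfl fun a _ => ?_
    rw [pd_comm hO (hu.pd hO a) hx b i, pd3_comm hO hu hx i b a]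
  rw [Finset.sum_congr rfl (fun i _ => Finset.sum_comm), Finset.sum_comm]
  refine Finset.sum_congr rfl fun b _ => ?_
  rw [e, Finset.sum_mul]
  exact Finset.sum_congr rfl fun i _ => (Finset.sum_mul _ _ _).symm

end Vale.Agent.P252
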